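import Mathlib

/-!
Row 123 (S0163): shared definitions and the statements of the three independent pieces
(packaging of the manifold, homology of the 2-sphere, entropy-zero criterion).
-/

set_option autoImplicit false
open scoped Manifold ContDiff Topology

namespace Crest.Agent.R123

/-- The unit 2-sphere, as a plain subtype of `ℂ × ℝ` (metric: induced from the product). -/
abbrev S2 : Type := {p : ℂ × ℝ // ‖p.1‖ ^ 2 + p.2 ^ 2 = 1}

/-- The 5-manifold `S² × S² × S¹`. -/
abbrev M5 : Type := S2 × S2 × Circle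

/-- The ambient vector space. -/
abbrev E8 : Type := (ℂ × ℝ) × (ℂ × ℝ) × ℂ

/-- The inclusion of `M5` in the ambient space. -/
def emb (m : M5) : E8 := (m.1.1, m.2.1.1, (m.2.2 : ℂ))

instance : CompactSpace S2 := by
  refine isCompact_iff_compactSpace.mp (Metric.isCompact_of_isClosed_isBounded ?_ ?_)
  · exact isClosed_eq (by fun_prop) continuous_const
  · refine (Metric.isBounded_closedBall (x := (0 : ℂ × ℝ)) (r := 1)).subset ?_
    rintro ⟨z, c⟩ h
    have h' : ‖z‖ ^ 2 + c ^ 2 = 1 := h
    simp only [Metric.mem_closedBall, dist_zero_right, Prod.norm_def, max_le_iff,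
      Real.norm_eq_abs]
    constructor
    · nlinarith [norm_nonneg z, sq_nonneg c]
    · rw [abs_le]; constructor <;> nlinarith [norm_nonneg z, sq_nonneg c, sq_nonneg ‖z‖]

instance : Nonempty S2 := ⟨⟨(0, 1), by simp⟩⟩

/-- The map `w ↦ w²` of the Riemann sphere in the stereographic coordinate `w = z / (1 - c)`:
`(z, c) ↦ (z², 2c) / (1 + c²)`. -/
noncomputable def sq : C(S2, S2) where
  toFun p := ⟨(p.1.1 ^ 2 / ((1 + p.1.2 ^ 2 : ℝ) : ℂ), 2 * p.1.2 / (1 + p.1.2 ^ 2)), by
    obtain ⟨⟨z, c⟩, h⟩ := p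
    have h' : ‖z‖ ^ 2 = 1 - c ^ 2 := by
      have : ‖z‖ ^ 2 + c ^ 2 = 1 := h
      linarith
    have hc : (0 : ℝ) < 1 + c ^ 2 := by positivity
    simp only [norm_div, norm_pow, Complex.norm_real, Real.norm_eq_abs, abs_of_pos hc, h']
    field_simp
    ring⟩
  continuous_toFun := by
    refine Continuous.subtype_mk (Continuous.prodMk ?_ ?_) _
    · refine Continuous.div (by fun_prop) (by fun_prop) fun p => ?_
      have : (0 : ℝ) < 1 + p.1.2 ^ 2 := by positivity
      exact_mod_cast this.ne'
    · refine Continuous.div (by fun_prop) (by fun_prop) fun p => ?_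
      have : (0 : ℝ) < 1 + p.1.2 ^ 2 := by positivity
      exact this.ne'

/-- (P) `M5` has a smooth structure modelled on `ℝ⁵` for which a self-map that is locally the
restriction of an ambient `C¹` map is `C¹`. -/
def PackageStmt : Prop :=
  ∀ f : M5 → M5,
    (∀ m : M5, ∃ g : E8 → E8, ContDiffAt ℝ 1 g (emb m) ∧
      ∀ᶠ m' in 𝓝 m, emb (f m') = g (emb m')) →
    ∃ (_ : ChartedSpace (EuclideanSpace ℝ (Fin 5)) M5)
      (_ : IsManifold (modelWithCornersSelf ℝ (EuclideanSpace ℝ (Fin 5))) ∞ M5),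
      ContMDiff (modelWithCornersSelf ℝ (EuclideanSpace ℝ (Fin 5)))
        (modelWithCornersSelf ℝ (EuclideanSpace ℝ (Fin 5))) 1 f

/-- (H) If `f` restricted to a retract 2-sphere is homotopic to the squaring map, then `2` is an
eigenvalue of `f` on `H₂(M; ℝ)`. -/
def HomologyStmt : Prop :=
  ∀ (M : Type) [TopologicalSpace M] (f : C(M, M)) (i : C(S2, M)) (pr : C(M, S2)),
    pr.comp i = ContinuousMap.id S2 → (f.comp i).Homotopic (i.comp sq) →
    Module.End.HasEigenvalue
      (((AlgebraicTopology.singularHomologyFunctor (ModuleCat.{0} ℝ) 2).obj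
          (ModuleCat.of ℝ ℝ)).map (TopCat.ofHom f)).hom (2 : ℝ)

/-- (E) If for every `ε` all orbits spend a bounded number of steps outside the `ε`-balls around
finitely many fixed points, the topological entropy vanishes. -/
def EntropyStmt : Prop :=
  ∀ (M : Type) [MetricSpace M] [CompactSpace M] [Nonempty M] (f : M → M), Continuous f →
    ∀ P : Finset M, (∀ p ∈ P, f p = p) →
    (∀ ε : ℝ, 0 < ε → ∃ N : ℕ, ∀ (x : M) (s : Finset ℕ),
      (∀ n ∈ s, ∀ p ∈ P, ε ≤ dist (f^[n] x) p) → s.card ≤ N) →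
    Dynamics.coverEntropy f Set.univ = 0

end Crest.Agent.R123
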