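import Crest.Agent.R123.Sphere

/-! Row 123: every orbit spends a bounded time away from the four fixed points. -/

set_option autoImplicit false
open scoped Topology
open Real

namespace Crest.Agent.R123.C

section Rank
variable {M : Type*} (f : M → M) (bad : M → Prop)

open Classical in
/-- Number of bad times among the first `T`. -/
noncomputable def cnt : ℕ → M → ℕ
  | 0, _ => 0
  | T + 1, m => (if bad m then 1 else 0) + cnt T (f m)

def Bnd (m : M) (N : ℕ) : Prop := ∀ T, cnt f bad T m ≤ N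

variable {f bad}

lemma Bnd.mono {m : M} {N N' : ℕ} (h : Bnd f bad m N) (hN : N ≤ N') : Bnd f bad m N' :=
  fun T => (h T).trans hN

lemma Bnd.step {m : M} {N : ℕ} (h : Bnd f bad (f m) N) : Bnd f bad m (N + 1) := by
  intro T
  rcases T with _ | T
  · simp [cnt]
  · have := h T
    unfold cnt
    split_ifs <;> omega

lemma bnd_of_rank (Q : M → ℕ → Prop) (N₀ : ℕ)
    (h : ∀ m i, Q m i → Bnd f bad (f m) N₀ ∨
      ∃ i', Q (f m) i' ∧ i' ≤ i ∧ (bad m → i' < i)) {m : M} {i : ℕ} (hm : Q m i) :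
    Bnd f bad m (i + N₀ + 1) := by
  intro T
  induction T generalizing m i with
  | zero => simp [cnt]
  | succ T ih =>
    rcases h m i hm with h1 | ⟨i', h1, h2, h3⟩
    · exact (h1.step (T + 1)).trans (by omega)
    · have := ih h1
      unfold cnt
      split_ifs with hb
      · have := h3 hb; omega
      · omega

open Classical in
lemma cnt_eq (T : ℕ) (m : M) :
    cnt f bad T m = ((Finset.range T).filter fun n => bad (f^[n] m)).card := by
  induction T generalizing m with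
  | zero => simp [cnt]
  | succ T ih =>
    rw [cnt, ih, Finset.card_filter, Finset.card_filter, Finset.sum_range_succ', add_comm]
    rfl

lemma Bnd.card_le {m : M} {N : ℕ} (h : Bnd f bad m N) (s : Finset ℕ)
    (hs : ∀ n ∈ s, bad (f^[n] m)) : s.card ≤ N := by
  classical
  refine le_trans ?_ (h (s.sup id + 1))
  rw [cnt_eq]
  convert Finset.card_le_card (s := s) fun n hn => ?_
  rw [Finset.mem_filter, Finset.mem_range]
  exact ⟨Nat.lt_succ_of_le (Finset.le_sup (f := id) hn), hs n hn⟩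

end Rank

/-- Rank of an expanding quantity. -/
def RA (δ a : ℝ) (i : ℕ) : Prop := 1 ≤ 2 ^ i * max a δ

lemma RA.mono {δ a a' : ℝ} {i : ℕ} (h : RA δ a i) (ha : a ≤ a') : RA δ a' i :=
  h.trans (mul_le_mul_of_nonneg_left (max_le_max_right _ ha) (by positivity))

lemma RA.step {δ a a' : ℝ} {i : ℕ} (h : RA δ a i) (ha0 : 0 ≤ a) (ha : 2 * a ≤ a') (h1 : a < 1) :
    ∃ i', RA δ a' i' ∧ i' ≤ i ∧ (δ ≤ a → i' < i) := by
  by_cases hd : δ ≤ a
  · unfold RA at h
    rw [max_eq_left hd] at h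
    rcases i with _ | i
    · simp at h; linarith
    · refine ⟨i, ?_, by omega, fun _ => by omega⟩
      unfold RA
      have : (0 : ℝ) < 2 ^ i := by positivity
      rw [pow_succ] at h
      nlinarith [mul_le_mul_of_nonneg_left (ha.trans (le_max_left a' δ)) this.le]
  · exact ⟨i, h.mono (by linarith), le_rfl, fun h' => absurd h' hd⟩

lemma RA.of_top {δ a : ℝ} {I : ℕ} (hI : 1 ≤ 2 ^ I * δ) : RA δ a I :=
  hI.trans (mul_le_mul_of_nonneg_left (le_max_right _ _) (by positivity))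

/-- Rank of a height. -/
def RB (δ r s : ℝ) (j : ℕ) : Prop := s = 0 ∨ s = 1 ∨ RA δ |s - r| j

lemma RB.step {δ r s : ℝ} {j : ℕ} (h : RB δ r s j) (hr0 : 1 / 4 ≤ r ∨ s ≠ 1 ∧ 1 / 10 ≤ r)
    (hr1 : r ≤ 9 / 10) (h0 : 0 ≤ s) (h1 : s ≤ 1) :
    ∃ j', RB δ r (cl (r + 4 * (s - r))) j' ∧ j' ≤ j ∧
      (s ≠ 0 → s ≠ 1 → δ ≤ |s - r| → j' < j) := by
  have hr : 1 / 10 ≤ r := by rcases hr0 with h | h; exacts [by linarith, h.2]
  rcases h with h | h | h
  · exact ⟨j, Or.inl (cl_of_nonpos (by linarith)), le_rfl, fun h' => absurd h h'⟩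
  · exact ⟨j, Or.inr (Or.inl (cl_of_one_le (by linarith))), le_rfl, fun _ h' => absurd h h'⟩
  · obtain ⟨j', e1, e2, e3⟩ := h.step (a' := 2 * |s - r|) (abs_nonneg _) le_rfl
      (by rw [abs_lt]; constructor <;> linarith)
    refine ⟨j', ?_, e2, fun _ _ => e3⟩
    rcases cl_expand (s := s) hr hr1 with h' | h' | h'
    · exact Or.inl h'
    · exact Or.inr (Or.inl h')
    · exact Or.inr (Or.inr (e1.mono (by linarith [abs_nonneg (s - r)])))

noncomputable def pinf (s : ℝ) : M5 := (NP, ee 0, ex s)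

lemma ff_pinf {s : ℝ} (h0 : 0 ≤ s) (h1 : s ≤ 1) : ff (pinf s) = pinf (sig' s) := by
  rw [pinf, ff_ex _ _ h0 h1, FM, if_pos (show NP.1.2 = 1 from rfl), pinf]

lemma io_one_add (x : V) (s : ℝ) : io x (1 + s) = io x s := by rw [io, ex_one_add, io]
lemma io_one (x : V) : io x 1 = io x 0 := by rw [← io_one_add x 0, add_zero]

section Main
variable {bad : M5 → Prop} {δ K : ℝ} {I : ℕ}

lemma bnd_inf (hI : 1 ≤ 2 ^ I * δ)
    (g3 : ∀ s, (s = 0 ∨ s = 1 ∨ |s - 7 / 10| < δ) → ¬bad (pinf s))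
    {s : ℝ} (h0 : 0 ≤ s) (h1 : s ≤ 1) : Bnd ff bad (pinf s) (I + 0 + 1) := by
  refine bnd_of_rank (fun m j => ∃ s, 0 ≤ s ∧ s ≤ 1 ∧ m = pinf s ∧ RB δ (7 / 10) s j) 0 ?_
    ⟨s, h0, h1, rfl, Or.inr (Or.inr (RA.of_top hI))⟩
  rintro m j ⟨s, h0, h1, rfl, h⟩
  obtain ⟨j', e1, e2, e3⟩ := h.step (by norm_num) (by norm_num) h0 h1
  refine Or.inr ⟨j', ⟨sig' s, sig'_nonneg s, sig'_le_one s, ff_pinf h0 h1, e1⟩, e2, fun hb => ?_⟩
  by_contra h'
  refine g3 s ?_ hb
  by_contra h''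
  push Not at h''
  exact h' (e3 h''.1 h''.2.1 h''.2.2)

lemma bnd_far (hI : 1 ≤ 2 ^ I * δ) (hK : 0 < K) (hK' : δ * K ≤ 1 / 2)
    (g2 : ∀ (a : ℂ) s, K ≤ ‖a‖ → (s = 0 ∨ s = 1 ∨ |s - 7 / 10| < δ) → ¬bad (io (a, 0) s))
    {x : V} (hx : Far x) {s : ℝ} (h0 : 0 ≤ s) (h1 : s ≤ 1) :
    Bnd ff bad (io x s) (I + I + 0 + 1) := by
  refine bnd_of_rank (fun m n => ∃ x s i j, Far x ∧ 0 ≤ s ∧ s ≤ 1 ∧ m = io x s ∧
    RA δ (‖x.1‖ / K) i ∧ RB δ (7 / 10) s j ∧ n = i + j) 0 ?_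
    ⟨x, s, I, I, hx, h0, h1, rfl, RA.of_top hI, Or.inr (Or.inr (RA.of_top hI)), rfl⟩
  rintro m n ⟨x, s, i, j, hx, h0, h1, rfl, hA, hB, rfl⟩
  obtain ⟨j', e1, e2, e3⟩ := hB.step (by norm_num) (by norm_num) h0 h1
  have hf : ff (io x s) = io (XX x s) (sig' s) := by rw [ff_io x h0 h1, (hx.step s).1, io_one_add]
  have hg : 2 * (‖x.1‖ / K) ≤ ‖(XX x s).1‖ / K := by
    rw [(hx.step s).2, ← mul_div_assoc]
    refine div_le_div_of_nonneg_right ?_ hK.le
    simp only [norm_mul, norm_pow, Complex.norm_ofNat]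
    nlinarith [hx.2]
  have hp : 0 ≤ ‖x.1‖ / K := by positivity
  by_cases hk : K ≤ ‖x.1‖
  · refine Or.inr ⟨i + j', ⟨XX x s, sig' s, i, j', hx.far s, sig'_nonneg s, sig'_le_one s, hf,
      hA.mono (by linarith), e1, rfl⟩, by omega, fun hb => ?_⟩
    by_contra h'
    have ex : x = (x.1, 0) := Prod.ext rfl hx.1
    rw [ex] at hb
    refine g2 _ s hk ?_ hb
    by_contra h''
    push Not at h''
    have := e3 h''.1 h''.2.1 h''.2.2
    omega
  · obtain ⟨i', d1, d2, d3⟩ := hA.step hp hg ((div_lt_one hK).2 (not_le.1 hk))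
    have := d3 (by rw [le_div_iff₀ hK]; linarith [hx.2])
    exact Or.inr ⟨i' + j', ⟨XX x s, sig' s, i', j', hx.far s, sig'_nonneg s, sig'_le_one s, hf,
      d1, e1, rfl⟩, by omega, fun _ => by omega⟩

lemma bnd_gam {N : ℕ} (hI : 1 ≤ 2 ^ I * δ)
    (g1 : ∀ x s, nr x < δ → (s = 0 ∨ |s - 1 / 5| < δ) → ¬bad (io x s))
    (hfar : ∀ x s, Far x → 0 ≤ s → s ≤ 1 → Bnd ff bad (io x s) N)
    {x : V} (hx : Gam 1 x ∨ Far x) : Bnd ff bad (io x 1) (I + N + 1) := by
  rcases hx with hx | hx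
  swap
  · exact (hfar x 1 hx zero_le_one le_rfl).mono (by omega)
  refine bnd_of_rank (fun m i => ∃ x, Gam 1 x ∧ m = io x 1 ∧ RA δ (nr x) i) N ?_
    ⟨x, hx, rfl, RA.of_top hI⟩
  rintro m i ⟨x, hx, rfl, hA⟩
  have hn : nu 1 = 1 := nu_high (by norm_num)
  rw [ff_io x zero_le_one le_rfl, th_high x (by norm_num), io_one_add]
  by_cases hp : psi x 1 = 0
  · have hU := psi_eq_zero_iff.1 hp
    rw [hn] at hU
    rw [hp, zero_mul, XX_top hp, ← RR_one]
    rcases hx.RR hU with h | h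
    · rw [U_one] at hU
      obtain ⟨i', d1, d2, d3⟩ := hA.step (a' := nr (RR 1 x)) (nr_nonneg x)
        (by rw [nr_RR, U_one]; linarith [nr_nonneg x]) (by linarith)
      refine Or.inr ⟨i', ⟨RR 1 x, h, (io_one _).symm, d1⟩, d2, fun hb => d3 ?_⟩
      by_contra h'
      rw [io_one] at hb
      exact g1 x 0 (not_le.1 h') (Or.inl rfl) hb
    · exact Or.inl (hfar _ 0 h le_rfl zero_le_one)
  · exact Or.inl (hfar _ _ (Gam.shell (by norm_num) (by rwa [hn]) hp)
      (mul_nonneg (psi_nonneg ..) (sig'_nonneg _))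
      (mul_le_one₀ (psi_le_one ..) (sig'_nonneg _) (sig'_le_one _)))

lemma bnd_lid {N : ℕ} (hgam : ∀ x, Gam 1 x ∨ Far x → Bnd ff bad (io x 1) N)
    {x : V} {s : ℝ} (h0 : 0 ≤ s) (h1 : s ≤ 1 / 2) (h : 2 / 5 ≤ s ∨ psi x s = 1) :
    Bnd ff bad (io x s) (N + 1) := by
  refine Bnd.step ?_
  have e := th_lid h1 h
  have := thin_low h1 (x := x) (by rw [e]; norm_num)
  rw [ff_io x h0 (by linarith), e]
  rw [e, nu_high (by norm_num)] at this
  exact hgam _ (this.gam_or_far zero_le_one le_rfl)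

lemma bnd_thin {N : ℕ} (hgam : ∀ x, Gam 1 x ∨ Far x → Bnd ff bad (io x 1) N)
    (hfar : ∀ x s, Far x → 0 ≤ s → s ≤ 1 → Bnd ff bad (io x s) N)
    {x : V} {s : ℝ} (h0 : 2 / 5 ≤ s) (h1 : s ≤ 1) (h : s ≤ 1 / 2 ∨ Thin (nu s) x) :
    Bnd ff bad (io x s) (N + 1) := by
  rcases le_total s (1 / 2) with hs | hs
  · exact bnd_lid hgam (by linarith) hs (Or.inl h0)
  rcases h with h | h
  · exact bnd_lid hgam (by linarith) h (Or.inl h0)
  refine Bnd.step ?_
  rw [ff_io x (by linarith) h1, th_high x hs, io_one_add]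
  have a0 := mul_nonneg (psi_nonneg x s) (sig'_nonneg s)
  have a1 := mul_le_one₀ (psi_le_one x s) (sig'_nonneg s) (sig'_le_one s)
  by_cases hp : psi x s = 0
  · rw [hp, zero_mul, ← io_one]
    exact hgam _ (h.core hs hp)
  · rcases h.gam_or_far (nu_nonneg s) (nu_le_one s) with h | h
    · exact hfar _ _ (h.shell hs hp) a0 a1
    · exact hfar _ _ (h.far s) a0 a1

lemma bnd_low {N : ℕ} (hI : 1 ≤ 2 ^ I * δ)
    (g1 : ∀ x s, nr x < δ → (s = 0 ∨ |s - 1 / 5| < δ) → ¬bad (io x s))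
    (hgam : ∀ x, Gam 1 x ∨ Far x → Bnd ff bad (io x 1) N)
    (hfar : ∀ x s, Far x → 0 ≤ s → s ≤ 1 → Bnd ff bad (io x s) N)
    {x : V} {s : ℝ} (h0 : 0 ≤ s) (h1 : s ≤ 1 / 2) :
    Bnd ff bad (io x s) (I + I + (N + 1) + 1) := by
  refine bnd_of_rank (fun m n => ∃ x s i j, 0 ≤ s ∧ s ≤ 1 / 2 ∧ m = io x s ∧
    RA δ (nr x) i ∧ RB δ (1 / 5) s j ∧ n = i + j) (N + 1) ?_
    ⟨x, s, I, I, h0, h1, rfl, RA.of_top hI, Or.inr (Or.inr (RA.of_top hI)), rfl⟩
  rintro m n ⟨x, s, i, j, h0, h1, rfl, hA, hB, rfl⟩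
  rw [ff_io x h0 (by linarith)]
  obtain ⟨t0, t1⟩ := th_low_mem x h1
  have t2 := (sig_nonneg s).trans t0
  rcases le_total (2 / 5) (th x s) with h2 | h2
  · refine Or.inl (bnd_thin hgam hfar h2 t1 ?_)
    rcases le_total (9 / 20) (th x s) with h3 | h3
    · exact Or.inr (thin_low h1 h3)
    · exact Or.inl (by linarith)
  have hs : s ≤ 2 / 5 := by
    by_contra h'
    rw [sig_high (not_le.1 h').le] at t0
    linarith
  have hn : nu s = 1 := nu_low (by linarith)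
  have eX : nr (XX x s) = 64 * nr x := by rw [XX_lin h1 h2, nr_smul (by norm_num), nr_Sw]
  by_cases hp : psi x s = 0
  · have hU := psi_eq_zero_iff.1 hp
    rw [hn, U_one] at hU
    have e : th x s = sig s := by rw [th_low x h1, hp]; ring
    obtain ⟨i', d1, d2, d3⟩ := hA.step (a' := nr (XX x s)) (nr_nonneg x)
      (by rw [eX]; linarith [nr_nonneg x]) (by linarith)
    obtain ⟨j', e1, e2, e3⟩ := hB.step (Or.inr ⟨by linarith, by norm_num⟩) (by norm_num) h0
      (by linarith)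
    refine Or.inr ⟨i' + j', ⟨XX x s, th x s, i', j', t2, by linarith, rfl, d1, by rw [e]; exact e1,
      rfl⟩, by omega, fun hb => ?_⟩
    by_cases a : δ ≤ nr x
    · have := d3 a; omega
    · by_contra h'
      refine g1 x s (not_le.1 a) ?_ hb
      by_contra h''
      push Not at h''
      have := e3 h''.1 (by linarith) h''.2
      omega
  · have hU : 1 / 16 < nr x := by
      have := not_le.1 fun h' => hp (psi_low h')
      rwa [hn, U_one] at this
    exact Or.inl (bnd_lid hgam t2 (by linarith) (Or.inr (psi_of_nr _ (by rw [eX]; linarith))))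

lemma bnd_all (hI : 1 ≤ 2 ^ I * δ) (hK : 0 < K) (hK' : δ * K ≤ 1 / 2)
    (g1 : ∀ x s, nr x < δ → (s = 0 ∨ |s - 1 / 5| < δ) → ¬bad (io x s))
    (g2 : ∀ (a : ℂ) s, K ≤ ‖a‖ → (s = 0 ∨ s = 1 ∨ |s - 7 / 10| < δ) → ¬bad (io (a, 0) s))
    (g3 : ∀ s, (s = 0 ∨ s = 1 ∨ |s - 7 / 10| < δ) → ¬bad (pinf s)) :
    ∃ N, ∀ m, Bnd ff bad m N := by
  have hfar := fun x s (hx : Far x) (h0 : 0 ≤ s) (h1 : s ≤ 1) => bnd_far hI hK hK' g2 hx h0 h1
  have hgam := fun x (hx : Gam 1 x ∨ Far x) => bnd_gam hI g1 hfar hx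
  have hfar' : ∀ x s, Far x → 0 ≤ s → s ≤ 1 → Bnd ff bad (io x s) (I + (I + I + 0 + 1) + 1) :=
    fun x s hx h0 h1 => (hfar x s hx h0 h1).mono (by omega)
  have hlow := fun x s (h0 : 0 ≤ s) (h1 : s ≤ 1 / 2) => bnd_low (x := x) hI g1 hgam hfar' h0 h1
  have hio : ∀ x s, 0 ≤ s → s ≤ 1 → Bnd ff bad (io x s) (5 * I + 6) := by
    intro x s h0 h1
    rcases le_total s (1 / 2) with hs | hs
    · exact (hlow x s h0 hs).mono (by omega)
    have a0 := mul_nonneg (psi_nonneg x s) (sig'_nonneg s)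
    have a1 := mul_le_one₀ (psi_le_one x s) (sig'_nonneg s) (sig'_le_one s)
    refine (Bnd.step (N := 5 * I + 5) ?_)
    rw [ff_io x h0 h1, th_high x hs, io_one_add]
    rcases le_total (9 / 20) (psi x s * sig' s) with h | h
    · exact (bnd_thin hgam hfar' (by linarith) a1 (Or.inr (thin_high hs h))).mono (by omega)
    · exact (hlow _ _ a0 (by linarith)).mono (by omega)
  refine ⟨5 * I + 7, fun m => Bnd.step ?_⟩
  rw [ff, FM]
  split_ifs with h
  · exact (bnd_inf hI g3 (sig'_nonneg _) (sig'_le_one _)).mono (by omega)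
  · set x : V := (ch m.1.1, ch2 m.2.1.1)
    set s := hgt m.2.2
    rcases le_total s (1 / 2) with hs | hs
    · exact hio _ _ ((sig_nonneg s).trans (th_low_mem x hs).1) (th_low_mem x hs).2
    · rw [th_high x hs, io_one_add]
      exact hio _ _ (mul_nonneg (psi_nonneg x s) (sig'_nonneg s))
        (mul_le_one₀ (psi_le_one x s) (sig'_nonneg s) (sig'_le_one s))

end Main

lemma continuous_io : Continuous fun p : V × ℝ => io p.1 p.2 :=
  (continuous_ee.comp (by fun_prop)).prodMk ((continuous_ee.comp (by fun_prop)).prodMk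
    (continuous_ex.comp continuous_snd))

lemma norm_le_nr (x : V) : ‖x‖ ≤ nr x := by
  have := nr_sq x
  have h0 := nr_nonneg x
  unfold q at this
  rw [Prod.norm_def]
  refine max_le ?_ ?_ <;> refine abs_le_of_sq_le_sq' ?_ h0 |>.2 <;>
    nlinarith [sq_nonneg ‖x.1‖, sq_nonneg ‖x.2‖]

lemma dist_ee_NP {a : ℂ} (h : 0 < ‖a‖) : dist (ee a) NP ≤ 2 / ‖a‖ := by
  have hp : 0 < ‖a‖ ^ 2 + 1 := by positivity
  rw [Subtype.dist_eq, Prod.dist_eq]
  simp only [ee, eeA, NP, dist_zero_right, norm_smul, Real.norm_eq_abs, Real.dist_eq]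
  refine max_le ?_ ?_
  · rw [abs_of_pos (by positivity), div_mul_eq_mul_div, div_le_div_iff₀ hp h]
    nlinarith
  · have : (‖a‖ ^ 2 - 1) / (‖a‖ ^ 2 + 1) - 1 = -(2 / (‖a‖ ^ 2 + 1)) := by field_simp; ring
    rw [this, abs_neg, abs_of_pos (by positivity), div_le_div_iff₀ hp h]
    nlinarith [sq_nonneg (‖a‖ - 1)]

open Classical in
noncomputable def PP : Finset M5 := {io 0 0, io 0 (1 / 5), pinf 0, pinf (7 / 10)}

lemma psi_zero (s : ℝ) : psi 0 s = 0 := psi_low (by simp)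

lemma PP_fixed : ∀ p ∈ PP, ff p = p := by
  have key : ∀ s, 0 ≤ s → s ≤ 2 / 5 → sig s = s → ff (io 0 s) = io 0 s := by
    intro s h0 h1 h2
    have e : th 0 s = s := by rw [th_low _ (by linarith), psi_zero, h2]; ring
    rw [ff_io _ h0 (by linarith), XX_lin (by linarith) (by rw [e]; exact h1), e]
    simp
  intro p hp
  simp only [PP, Finset.mem_insert, Finset.mem_singleton] at hp
  rcases hp with rfl | rfl | rfl | rfl
  · exact key 0 le_rfl (by norm_num) (sig_low (by norm_num))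
  · refine key _ (by norm_num) (by norm_num) ?_
    rw [sig, cl_eq_self] <;> norm_num
  · rw [ff_pinf le_rfl zero_le_one, sig'_low (by norm_num)]
  · rw [ff_pinf (by norm_num) (by norm_num), sig', cl_eq_self] <;> norm_num

theorem bounded_time (ε : ℝ) (hε : 0 < ε) : ∃ N : ℕ, ∀ (x : M5) (s : Finset ℕ),
    (∀ n ∈ s, ∀ p ∈ PP, ε ≤ dist (ff^[n] x) p) → s.card ≤ N := by
  obtain ⟨δ₁, hδ₁, h₁⟩ := Metric.continuousAt_iff.1 (continuous_io.continuousAt (x := (0, 0))) ε hε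
  obtain ⟨δ₂, hδ₂, h₂⟩ :=
    Metric.continuousAt_iff.1 (continuous_io.continuousAt (x := (0, 1 / 5))) ε hε
  obtain ⟨δ₃, hδ₃, h₃⟩ := Metric.continuousAt_iff.1 (continuous_ex.continuousAt (x := 7 / 10)) ε hε
  set δ := min (min δ₁ δ₂) (min δ₃ (ε / 8)) with hδ
  have d0 : 0 < δ := by positivity
  have d1 : δ ≤ δ₁ := (min_le_left _ _).trans (min_le_left _ _)
  have d2 : δ ≤ δ₂ := (min_le_left _ _).trans (min_le_right _ _)
  have d3 : δ ≤ δ₃ := (min_le_right _ _).trans (min_le_left _ _)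
  have d4 : δ ≤ ε / 8 := (min_le_right _ _).trans (min_le_right _ _)
  obtain ⟨I, hI⟩ := pow_unbounded_of_one_lt (1 / δ) (by norm_num : (1 : ℝ) < 2)
  rw [div_lt_iff₀ d0] at hI
  have gen : ∀ (w : S2) s, dist w NP < ε → (s = 0 ∨ s = 1 ∨ |s - 7 / 10| < δ) →
      ¬∀ p ∈ PP, ε ≤ dist ((w, ee 0, ex s) : M5) p := by
    intro w s hw hs hb
    rcases hs with rfl | rfl | hs
    · have := hb (pinf 0) (by simp [PP])
      simp only [pinf, Prod.dist_eq, dist_self, le_max_iff] at this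
      rcases this with h | h <;> linarith
    · have := hb (pinf 0) (by simp [PP])
      simp only [pinf, Prod.dist_eq, dist_self, le_max_iff, ex_one, ex_zero] at this
      rcases this with h | h <;> linarith
    · have := hb (pinf (7 / 10)) (by simp [PP])
      have h4 := h₃ (x := s) (by rw [Real.dist_eq]; linarith)
      simp only [pinf, Prod.dist_eq, dist_self, le_max_iff] at this
      rcases this with h | h | h <;> linarith
  refine (bnd_all (bad := fun m => ∀ p ∈ PP, ε ≤ dist m p) (δ := δ) (K := 4 / ε) hI.le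
    (by positivity) (by rw [← mul_div_assoc, div_le_iff₀ hε]; linarith) ?_ ?_ ?_).imp
    fun N hN x s hs => (hN x).card_le s hs
  · intro x s hx hs hb
    have hx' := (norm_le_nr x).trans_lt hx
    rcases hs with rfl | hs
    · have := h₁ (x := (x, 0)) (by
        rw [Prod.dist_eq, dist_self, dist_zero_right]; exact max_lt (by linarith) hδ₁)
      exact absurd (hb (io 0 0) (by simp [PP])) (not_le.2 this)
    · have := h₂ (x := (x, s)) (by
        rw [Prod.dist_eq, dist_zero_right, Real.dist_eq]; exact max_lt (by linarith) (by linarith))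
      exact absurd (hb (io 0 (1 / 5)) (by simp [PP])) (not_le.2 this)
  · intro a s ha hs
    have h0 : 0 < ‖a‖ := lt_of_lt_of_le (by positivity) ha
    refine gen (ee a) s ((dist_ee_NP h0).trans_lt ?_) hs
    rw [div_le_iff₀ hε] at ha
    rw [div_lt_iff₀ h0]
    linarith
  · intro s hs
    exact gen NP s (by simpa using hε) hs

end Crest.Agent.R123.C
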