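import Crest.Agent.R123.Defs

/-! Row 123: bounded time away from finitely many fixed points forces zero entropy. -/

set_option autoImplicit false
open scoped Topology Uniformity
open Filter

namespace Crest.Agent.R123

/-- Subsets of bounded size of a finite set: a polynomial count. -/
lemma card_small_subsets {α : Type*} [DecidableEq α] (A : Finset α) (m : ℕ) :
    (A.powerset.filter fun d => d.card ≤ m).card ≤ (m + 1) * (A.card + 1) ^ m := by
  have hsub : (A.powerset.filter fun d => d.card ≤ m) ⊆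
      (Finset.range (m + 1)).biUnion fun j => A.powersetCard j := by
    intro d hd
    simp only [Finset.mem_filter, Finset.mem_powerset] at hd
    simp only [Finset.mem_biUnion, Finset.mem_range, Finset.mem_powersetCard]
    exact ⟨d.card, Nat.lt_succ_of_le hd.2, hd.1, rfl⟩
  refine (Finset.card_le_card hsub).trans (Finset.card_biUnion_le.trans ?_)
  have : ∀ j ∈ Finset.range (m + 1), (A.powersetCard j).card ≤ (A.card + 1) ^ m := by
    intro j hj
    rw [Finset.card_powersetCard]
    calc A.card.choose j ≤ A.card ^ j := Nat.choose_le_pow _ _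
      _ ≤ (A.card + 1) ^ j := Nat.pow_le_pow_left (Nat.le_succ _) _
      _ ≤ (A.card + 1) ^ m :=
        Nat.pow_le_pow_right (Nat.succ_pos _) (Nat.lt_succ_iff.mp (Finset.mem_range.mp hj))
  refine (Finset.sum_le_card_nsmul _ _ _ this).trans ?_
  simp

/-- A polynomially bounded sequence has nonpositive exponential growth. -/
lemma expGrowthSup_le_zero_of_poly (u : ℕ → ENNReal) (a b m : ℕ)
    (hu : ∀ n, u n ≤ ((a * (n * b + 1) ^ m : ℕ) : ENNReal)) : ExpGrowth.expGrowthSup u ≤ 0 := by
  rw [ExpGrowth.expGrowthSup_le_iff]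
  intro c hc
  obtain ⟨r, hr0, hrc⟩ := EReal.lt_iff_exists_real_btwn.mp hc
  have hr : 0 < r := by exact_mod_cast hr0
  have h1 := (isLittleO_pow_exp_pos_mul_atTop m hr).comp_tendsto tendsto_natCast_atTop_atTop
  have hpos : (0 : ℝ) < 1 / ((a : ℝ) * ((b : ℝ) + 1) ^ m + 1) := by positivity
  filter_upwards [h1.def hpos, eventually_ge_atTop 1] with n hn hn1
  refine (hu n).trans ?_
  have h2 : ((a * (n * b + 1) ^ m : ℕ) : ℝ) ≤ Real.exp (r * n) := by
    simp only [Function.comp, Real.norm_eq_abs, abs_of_nonneg (pow_nonneg (Nat.cast_nonneg (α := ℝ) n) m),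
      abs_of_pos (Real.exp_pos _)] at hn
    have hn1' : (1 : ℝ) ≤ n := by exact_mod_cast hn1
    have h3 : ((n : ℝ) * b + 1) ^ m ≤ (n : ℝ) ^ m * ((b : ℝ) + 1) ^ m := by
      rw [← mul_pow]
      refine pow_le_pow_left₀ (by positivity) ?_ _
      nlinarith
    have h4 : (n : ℝ) ^ m * ((a : ℝ) * ((b : ℝ) + 1) ^ m + 1) ≤ Real.exp (r * n) := by
      rw [one_div, inv_mul_eq_div, le_div_iff₀ (by positivity)] at hn
      exact hn
    push_cast
    have h5 : (0 : ℝ) ≤ (n : ℝ) ^ m := by positivity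
    have h6 : (0 : ℝ) ≤ a := Nat.cast_nonneg a
    nlinarith [mul_le_mul_of_nonneg_left h3 h6]
  calc ((a * (n * b + 1) ^ m : ℕ) : ENNReal) = ENNReal.ofReal ((a * (n * b + 1) ^ m : ℕ) : ℝ) :=
        (ENNReal.ofReal_natCast _).symm
    _ ≤ ENNReal.ofReal (Real.exp (r * n)) := ENNReal.ofReal_le_ofReal h2
    _ = EReal.exp ((r * n : ℝ) : EReal) := (EReal.exp_coe _).symm
    _ ≤ EReal.exp (c * n) := by
        refine EReal.exp_monotone ?_
        rw [EReal.coe_mul]
        exact mul_le_mul_of_nonneg_right hrc.le (by exact_mod_cast Nat.zero_le n)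

/-- The record of the changes of a sequence before time `n`. -/
noncomputable def changes {α : Type*} (g : ℕ → α) (n : ℕ) : Finset (ℕ × α) := by
  classical
  exact ((Finset.range n).filter fun k => k = 0 ∨ g k ≠ g (k - 1)).image fun k => (k, g k)

lemma mem_changes {α : Type*} {g : ℕ → α} {n : ℕ} {q : ℕ × α} :
    q ∈ changes g n ↔ q.1 < n ∧ (q.1 = 0 ∨ g q.1 ≠ g (q.1 - 1)) ∧ g q.1 = q.2 := by
  classical
  unfold changes
  simp only [Finset.mem_image, Finset.mem_filter, Finset.mem_range]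
  constructor
  · rintro ⟨k, ⟨h1, h2⟩, rfl⟩
    exact ⟨h1, h2, rfl⟩
  · rintro ⟨h1, h2, h3⟩
    exact ⟨q.1, ⟨h1, h2⟩, Prod.ext rfl h3⟩

lemma eq_of_changes_eq {α : Type*} {g g' : ℕ → α} {n : ℕ} (h : changes g n = changes g' n) :
    ∀ k < n, g k = g' k := by
  intro k
  induction k with
  | zero =>
    intro hk
    have : ((0, g 0) : ℕ × α) ∈ changes g n := mem_changes.mpr ⟨hk, Or.inl rfl, rfl⟩
    rw [h] at this
    exact (mem_changes.mp this).2.2.symm
  | succ k ih =>
    intro hk
    have ih' := ih (Nat.lt_of_succ_lt hk)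
    by_cases h1 : g (k + 1) = g k
    · by_cases h2 : g' (k + 1) = g' k
      · rw [h1, h2, ih']
      · have : ((k + 1, g' (k + 1)) : ℕ × α) ∈ changes g' n :=
          mem_changes.mpr ⟨hk, Or.inr (by simpa using h2), rfl⟩
        rw [← h] at this
        exact (mem_changes.mp this).2.2
    · have : ((k + 1, g (k + 1)) : ℕ × α) ∈ changes g n :=
        mem_changes.mpr ⟨hk, Or.inr (by simpa using h1), rfl⟩
      rw [h] at this
      exact (mem_changes.mp this).2.2.symm

lemma card_changes_le {α : Type*} (g : ℕ → α) (n : ℕ) (bad : ℕ → Prop) (N : ℕ)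
    (hN : ∀ s : Finset ℕ, (∀ k ∈ s, bad k) → s.card ≤ N)
    (hg : ∀ k, ¬ bad k → ¬ bad (k + 1) → g (k + 1) = g k) : (changes g n).card ≤ 2 * N + 1 := by
  classical
  unfold changes
  refine Finset.card_image_le.trans ?_
  set B := (Finset.range n).filter bad with hB
  have hBN : B.card ≤ N := hN B fun k hk => (Finset.mem_filter.mp hk).2
  have hsub : ((Finset.range n).filter fun k => k = 0 ∨ g k ≠ g (k - 1)) ⊆
      insert 0 (B ∪ B.image (· + 1)) := by
    intro k hk
    simp only [Finset.mem_filter, Finset.mem_range] at hk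
    obtain ⟨hkn, hk⟩ := hk
    rcases k with _ | k
    · exact Finset.mem_insert_self _ _
    · refine Finset.mem_insert_of_mem ?_
      have hne : g (k + 1) ≠ g k := by simpa using hk
      by_cases h1 : bad (k + 1)
      · exact Finset.mem_union_left _ (Finset.mem_filter.mpr ⟨Finset.mem_range.mpr hkn, h1⟩)
      · by_cases h2 : bad k
        · exact Finset.mem_union_right _ (Finset.mem_image.mpr ⟨k, Finset.mem_filter.mpr
            ⟨Finset.mem_range.mpr (Nat.lt_of_succ_lt hkn), h2⟩, rfl⟩)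
        · exact absurd (hg k h2 h1) hne
  have h1 := Finset.card_le_card hsub
  have h2 := Finset.card_insert_le 0 (B ∪ B.image (· + 1))
  have h3 := Finset.card_union_le B (B.image (· + 1))
  have h4 : (B.image (· + 1)).card ≤ B.card := Finset.card_image_le
  exact h1.trans (by omega)

/-- A radius at which the map does not jump between the balls around distinct fixed points. -/
lemma exists_radius {M : Type*} [MetricSpace M] (f : M → M) (hf : Continuous f) (P : Finset M)
    (hP : ∀ p ∈ P, f p = p) (δ : ℝ) (hδ : 0 < δ) :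
    ∃ ε : ℝ, 0 < ε ∧ ε ≤ δ ∧ (∀ p ∈ P, ∀ q ∈ P, ∀ x, dist x p < ε → dist x q < ε → p = q) ∧
      ∀ p ∈ P, ∀ q ∈ P, ∀ x, dist x p < ε → dist (f x) q < ε → p = q := by
  have key : ∀ pq ∈ P ×ˢ P, ∀ᶠ ε in 𝓝[>] (0 : ℝ),
      (∀ x, dist x pq.1 < ε → dist x pq.2 < ε → pq.1 = pq.2) ∧
      ∀ x, dist x pq.1 < ε → dist (f x) pq.2 < ε → pq.1 = pq.2 := by
    rintro ⟨p, q⟩ hpq
    obtain ⟨hp, -⟩ := Finset.mem_product.mp hpq
    by_cases h : p = q
    · exact Eventually.of_forall fun ε => ⟨fun _ _ _ => h, fun _ _ _ => h⟩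
    · have hd : 0 < dist p q / 2 := half_pos (dist_pos.mpr h)
      obtain ⟨η, hη, hη'⟩ := Metric.continuous_iff.mp hf p _ hd
      have hm : 0 < min η (dist p q / 2) := lt_min hη hd
      filter_upwards [Ioo_mem_nhdsGT hm] with ε hε
      have h1 : ε < η := hε.2.trans_le (min_le_left _ _)
      have h2 : ε < dist p q / 2 := hε.2.trans_le (min_le_right _ _)
      constructor
      · intro x hx hx'
        have := dist_triangle_left p q x
        linarith
      · intro x hx hx'
        have h3 := hη' x (hx.trans h1)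
        rw [hP p hp] at h3
        have := dist_triangle_left p q (f x)
        linarith
  have h2 := (eventually_all_finset _).mpr key
  obtain ⟨ε, hε, hε'⟩ := (h2.and (Ioo_mem_nhdsGT hδ)).exists
  exact ⟨ε, hε'.1, hε'.2.le,
    fun p hp q hq => (hε (p, q) (Finset.mem_product.mpr ⟨hp, hq⟩)).1,
    fun p hp q hq => (hε (p, q) (Finset.mem_product.mpr ⟨hp, hq⟩)).2⟩

theorem entropy_zero : EntropyStmt := by
  classical
  intro M _ _ _ f hf P hP hN
  refine le_antisymm ?_ (Dynamics.coverEntropy_nonneg f Set.univ_nonempty)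
  refine iSup₂_le fun U hU => ?_
  obtain ⟨δ, hδ, hδU⟩ := Metric.mem_uniformity_dist.mp hU
  obtain ⟨ε, hε, hεδ, hsep, hjump⟩ := exists_radius f hf P hP (δ / 2) (half_pos hδ)
  obtain ⟨N, hN⟩ := hN ε hε
  obtain ⟨K₀, -, hK₀fin, hK₀⟩ := finite_cover_balls_of_compact (isCompact_univ (X := M)) hε
  have hnet : ∀ x : M, ∃ y ∈ hK₀fin.toFinset ∪ P, dist x y < ε ∧
      ∀ p ∈ P, dist x p < ε → y = p := by
    intro x
    by_cases h : ∃ p ∈ P, dist x p < ε
    · obtain ⟨p, hp, hxp⟩ := h
      exact ⟨p, Finset.mem_union_right _ hp, hxp, fun q hq hxq => hsep p hp q hq x hxp hxq⟩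
    · have := hK₀ (Set.mem_univ x)
      simp only [Set.mem_iUnion, Metric.mem_ball] at this
      obtain ⟨y, hy, hxy⟩ := this
      exact ⟨y, Finset.mem_union_left _ (hK₀fin.mem_toFinset.mpr hy), hxy,
        fun q hq hxq => absurd ⟨q, hq, hxq⟩ h⟩
  choose c hcK hcd hcP using hnet
  set K := hK₀fin.toFinset ∪ P
  refine expGrowthSup_le_zero_of_poly _ (2 * N + 1 + 1) K.card (2 * N + 1) fun n => ?_
  let D : M → Finset (ℕ × M) := fun x => changes (fun k => c (f^[k] x)) n
  let rep : Finset (ℕ × M) → M := fun d => Function.invFun D d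
  let A : Finset (ℕ × M) := Finset.range n ×ˢ K
  let s : Finset M := (A.powerset.filter fun d => d.card ≤ 2 * N + 1).image rep
  have hD : ∀ x, D x ∈ A.powerset.filter fun d => d.card ≤ 2 * N + 1 := by
    intro x
    refine Finset.mem_filter.mpr ⟨Finset.mem_powerset.mpr fun q hq => ?_, ?_⟩
    · obtain ⟨h1, -, h3⟩ := mem_changes.mp hq
      exact Finset.mem_product.mpr ⟨Finset.mem_range.mpr h1, h3 ▸ hcK _⟩
    · refine card_changes_le _ n (fun k => ∀ p ∈ P, ε ≤ dist (f^[k] x) p) N (hN x) ?_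
      intro k h1 h2
      push Not at h1 h2
      obtain ⟨p, hp, hkp⟩ := h1
      obtain ⟨q, hq, hkq⟩ := h2
      have hpq : p = q := hjump p hp q hq _ hkp (by rwa [Function.iterate_succ_apply'] at hkq)
      rw [hcP _ p hp hkp, hcP _ q hq hkq, hpq]
  have hcov : Dynamics.IsDynCoverOf f Set.univ U n s := by
    intro x _
    refine ⟨rep (D x), Finset.mem_coe.mpr (Finset.mem_image_of_mem _ (hD x)), ?_⟩
    have hDD : D (rep (D x)) = D x := Function.invFun_eq ⟨x, rfl⟩
    refine Dynamics.mem_dynEntourage.mpr fun k hk => hδU ?_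
    have h1 := eq_of_changes_eq hDD k hk
    have h2 := hcd (f^[k] x)
    have h3 := hcd (f^[k] (rep (D x)))
    rw [h1] at h3
    have := dist_triangle_right (f^[k] x) (f^[k] (rep (D x))) (c (f^[k] x))
    linarith
  have hcard : s.card ≤ (2 * N + 1 + 1) * (n * K.card + 1) ^ (2 * N + 1) := by
    refine Finset.card_image_le.trans ((card_small_subsets A _).trans ?_)
    simp [A]
  refine (ENat.toENNReal_mono hcov.coverMincard_le_card).trans ?_
  rw [ENat.toENNReal_coe]
  exact_mod_cast hcard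

end Crest.Agent.R123
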