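import Crest.Agent.R123.Tel

/-! Row 123: evaluation of the telescope, thin sets and good sets. -/

set_option autoImplicit false
open scoped Topology
open Real

namespace Crest.Agent.R123.C

lemma Psi_zero (ν : ℝ) (ζ : ℂ) : Psi (0, ν, ζ) = 0 := by simp [Psi, coefA]

lemma vecB_eq {ζ : ℂ} (hζ : ‖ζ‖ = 1) (n : ℕ) (k ν : ℝ) :
    vecB n (k, ν, ζ) = (Sw ^ n) (ζ ^ 2 ^ n, 0) := by
  simp [vecB, cc_of_norm hζ]

lemma Psi_eval {k ν : ℝ} {ζ : ℂ} (hζ : ‖ζ‖ = 1) (n : ℕ) (h1 : 1 / 64 ≤ 64 ^ n * uu k ν)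
    (h2 : n ≠ 0 → 64 ^ n * uu k ν ≤ 32) :
    Psi (k, ν, ζ) = k ^ 2 • (Sw ^ n)
      (bet (64 ^ n * uu k ν) • ζ ^ 2 ^ n, alp (64 ^ n * uu k ν) • ζ ^ 2 ^ (n + 1)) := by
  have hu := uu_nonneg k ν
  have big : ∀ m, n + 1 ≤ m → coefA m (k, ν, ζ) = 0 := by
    intro m hm
    have : (64 : ℝ) ^ (n + 1) ≤ 64 ^ m := pow_le_pow_right₀ (by norm_num) hm
    have h3 : 1 ≤ 64 ^ m * uu k ν := by
      have := mul_le_mul_of_nonneg_right this hu
      rw [pow_succ] at this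
      nlinarith
    simp [coefA, aa_of_ge h3]
  have cn : coefA n (k, ν, ζ) = k ^ 2 * alp (64 ^ n * uu k ν) := by
    simp only [coefA, aa]
    rw [bet_of_ge (by linarith), mul_one]
  rcases n with _ | j
  · unfold Psi
    rw [tsum_eq_single 0 fun m hm => by rw [big m (by omega), zero_smul], cn, vecB_eq hζ,
      vecB_eq hζ]
    ext <;> simp [mul_assoc]
  · have h3 := h2 (by omega)
    have h4 : 64 ^ j * uu k ν ≤ 1 / 2 := by rw [pow_succ] at h3; nlinarith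
    have small : ∀ m, m ≤ j → 64 ^ m * uu k ν ≤ 1 / 2 := fun m hm =>
      (mul_le_mul_of_nonneg_right (pow_le_pow_right₀ (by norm_num) hm) hu).trans h4
    have cj : coefA j (k, ν, ζ) = k ^ 2 * bet (64 ^ (j + 1) * uu k ν) := by
      simp only [coefA, aa]
      rw [alp_of_le h4, one_mul, pow_succ' _ j, mul_assoc]
    unfold Psi
    rw [tsum_eq_sum (s := {j, j + 1}), Finset.sum_pair (by omega), cn, cj, vecB_eq hζ, vecB_eq hζ,
      vecB_eq hζ, bet_of_le (by simpa using small 0 (by omega)), Swn_succ (j + 1)]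
    · simp only [mul_zero, zero_smul, mul_smul, ← map_smul, ← map_add, Sw_mk]
      ext <;> simp
    · intro m hm
      simp only [Finset.mem_insert, Finset.mem_singleton, not_or] at hm
      rcases lt_or_gt_of_ne hm.1 with h | h
      · have := small (m + 1) h
        rw [pow_succ', mul_assoc] at this
        simp [coefA, aa, bet_of_le this]
      · rw [big m (by omega), zero_smul]

lemma exists_level {u a : ℝ} (hu : 0 < u) (h : u ≤ 64 * a) :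
    ∃ n : ℕ, a ≤ 64 ^ n * u ∧ 64 ^ n * u ≤ 64 * a := by
  have hex : ∃ n : ℕ, a ≤ 64 ^ n * u := by
    obtain ⟨n, hn⟩ := pow_unbounded_of_one_lt (a / u) (by norm_num : (1 : ℝ) < 64)
    exact ⟨n, ((div_lt_iff₀ hu).1 hn).le⟩
  classical
  refine ⟨Nat.find hex, Nat.find_spec hex, ?_⟩
  rcases hn : Nat.find hex with _ | j
  · simpa using h
  · have := Nat.find_min hex (m := j) (by omega)
    rw [pow_succ]
    nlinarith [not_le.1 this]

lemma q_form (c c' : ℝ) {η η' : ℂ} (h : ‖η‖ = 1) (h' : ‖η'‖ = 1) :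
    q (c • η, c' • η') = c ^ 2 + c' ^ 2 := by
  simp [q, h, h']

lemma q_Psi {ζ : ℂ} (hζ : ‖ζ‖ = 1) (k ν : ℝ) : q (Psi (k, ν, ζ)) = k ^ 4 := by
  by_cases hk : k = 0
  · simp [hk, Psi_zero]
  have key : ∃ n : ℕ, 1 / 64 ≤ 64 ^ n * uu k ν ∧ (n ≠ 0 → 64 ^ n * uu k ν ≤ 32) := by
    rcases le_total (uu k ν) 1 with h | h
    · obtain ⟨n, h1, h2⟩ := exists_level (a := 1 / 64) (uu_pos hk ν) (by linarith)
      exact ⟨n, h1, fun _ => by linarith⟩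
    · exact ⟨0, by linarith, by simp⟩
  obtain ⟨n, h1, h2⟩ := key
  rw [Psi_eval hζ n h1 h2, q_smul, q_Swn, q_form _ _ (by simp [hζ]) (by simp [hζ]), bet_sq_add]
  ring

lemma nr_Psi {ζ : ℂ} (hζ : ‖ζ‖ = 1) (k ν : ℝ) : nr (Psi (k, ν, ζ)) = k ^ 2 :=
  nr_eq_of_sq (sq_nonneg k) (by rw [q_Psi hζ]; ring)

/-- The level function on the plane. -/
noncomputable def U (ν : ℝ) (x : V) : ℝ := nr x * mm ν (q x)

lemma U_nonneg (ν : ℝ) (x : V) : 0 ≤ U ν x := mul_nonneg (nr_nonneg x) (mm_nonneg _ (q_nonneg x))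
lemma U_one (x : V) : U 1 x = nr x := by simp [U, mm_one]
lemma U_zero (x : V) : U 0 x = nr x * q x := by simp [U, mm_zero]
@[simp] lemma U_zero' (ν : ℝ) : U ν 0 = 0 := by simp [U]
lemma U_sq (ν : ℝ) (x : V) : U ν x ^ 2 = q x * mm ν (q x) ^ 2 := by rw [U, mul_pow, nr_sq]
lemma U_pos (ν : ℝ) {x : V} (h : x ≠ 0) : 0 < U ν x := by
  have := q_pos h
  refine mul_pos (nr_pos h) ?_
  rcases mm_ge ν this.le with h | h <;> linarith
lemma U_Psi {ζ : ℂ} (hζ : ‖ζ‖ = 1) (k ν : ℝ) : U ν (Psi (k, ν, ζ)) = uu k ν := by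
  rw [U, nr_Psi hζ, q_Psi hζ, uu]
lemma U_le {ν : ℝ} (h0 : 0 ≤ ν) (h1 : ν ≤ 1) (x : V) : U ν x ≤ nr x * (1 + nr x ^ 2) := by
  rw [nr_sq]
  exact mul_le_mul_of_nonneg_left (mm_le h0 h1 (q_nonneg x)) (nr_nonneg x)
lemma U_ge (ν : ℝ) (x : V) : nr x ^ 3 ≤ U ν x ∨ nr x / 4 ≤ U ν x := by
  have := nr_nonneg x
  unfold U
  rcases mm_ge ν (q_nonneg x) with h | h
  · left; rw [← nr_sq] at h ⊢; nlinarith
  · right; nlinarith

lemma Psi_far {k ν : ℝ} {ζ : ℂ} (hζ : ‖ζ‖ = 1) (h : 1 ≤ uu k ν) :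
    Psi (k, ν, ζ) = ((k ^ 2) • ζ, 0) := by
  rw [Psi_eval hζ 0 (by linarith) (by simp)]
  simp [bet_of_ge h, alp_of_ge h]

lemma Psi_rec {k : ℝ} {ζ : ℂ} (hζ : ‖ζ‖ = 1) (h : k ^ 2 ≤ 1 / 2) :
    Psi (8 * k, 1, ζ ^ 2) = (64 : ℝ) • Sw (Psi (k, 1, ζ)) := by
  by_cases hk : k = 0
  · simp [hk, Psi_zero]
  obtain ⟨n, h1, h2⟩ := exists_level (u := 64 * k ^ 2) (a := 1 / 2) (by positivity) (by linarith)
  have e1 : 64 ^ n * uu (8 * k) 1 = 64 ^ n * (64 * k ^ 2) := by rw [uu_one]; ring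
  have e2 : 64 ^ (n + 1) * uu k 1 = 64 ^ n * (64 * k ^ 2) := by rw [uu_one]; ring
  rw [Psi_eval (by simp [hζ]) n (by linarith) (fun _ => by linarith),
    Psi_eval hζ (n + 1) (by linarith) (fun _ => by linarith), e1, e2, Swn_succ', map_smul, Sw_Sw,
    smul_smul, ← pow_mul, ← pow_mul, ← pow_succ', ← pow_succ']
  congr 1
  ring

noncomputable def cut (v : ℝ) : ℝ := step (1 / 65536) (1 / 16384) v

/-- The collapse onto the telescope. -/
noncomputable def Psig (k ν : ℝ) (g : ℂ) : V := Psi (k * cut (‖g‖ ^ 2), ν, g / (‖g‖ : ℂ))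

lemma Psig_zero (ν : ℝ) (g : ℂ) : Psig 0 ν g = 0 := by simp [Psig, Psi_zero]

lemma Psig_small (k ν : ℝ) {g : ℂ} (h : ‖g‖ ≤ 1 / 256) : Psig k ν g = 0 := by
  rw [Psig, cut, step_of_le (by norm_num) (by nlinarith [norm_nonneg g]), mul_zero, Psi_zero]

lemma Psig_smul (k ν : ℝ) {d : ℝ} (hd : 1 / 128 ≤ d) {η : ℂ} (hη : ‖η‖ = 1) :
    Psig k ν (d • η) = Psi (k, ν, η) := by
  have hn : ‖d • η‖ = d := by rw [norm_smul, hη, Real.norm_eq_abs, abs_of_pos (by linarith), mul_one]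
  rw [Psig, hn, cut, step_of_ge (by norm_num) (by nlinarith), mul_one]
  have : (d : ℂ) ≠ 0 := by exact_mod_cast (by linarith : d ≠ 0)
  congr 3
  rw [Complex.real_smul]
  field_simp

lemma contDiffAt_Psig {E : Type*} [NormedAddCommGroup E] [NormedSpace ℝ E] {k ν : E → ℝ}
    {g : E → ℂ} {x : E} (hk : g x ≠ 0 → ContDiffAt ℝ 1 k x) (hν : ContDiffAt ℝ 1 ν x)
    (hg : ContDiffAt ℝ 1 g x) : ContDiffAt ℝ 1 (fun y => Psig (k y) (ν y) (g y)) x := by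
  by_cases h : g x = 0
  · have : ∀ᶠ y in 𝓝 x, ‖g y‖ < 1 / 256 :=
      hg.continuousAt.norm.eventually (gt_mem_nhds (by simp [h]))
    refine (contDiffAt_const (c := (0 : V))).congr_of_eventuallyEq ?_
    filter_upwards [this] with y hy using Psig_small _ _ hy.le
  · unfold Psig
    refine contDiff_Psi.contDiffAt.comp x (ContDiffAt.prodMk ((hk h).mul ?_)
      (ContDiffAt.prodMk hν ?_))
    · exact (contDiffAt_step _ _ _).comp x (contDiff_normSq.contDiffAt.comp x hg)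
    · have hn : ContDiffAt ℝ 1 (fun y => ‖g y‖) x := hg.norm ℝ h
      have : (fun y => g y / (‖g y‖ : ℂ)) = fun y => (‖g y‖⁻¹) • g y := by
        funext y; rw [Complex.real_smul]; push_cast; ring
      rw [this]
      exact (hn.inv (norm_ne_zero_iff.2 h)).smul hg

/-- The thin set with parameter `ν`. -/
def Thin (ν : ℝ) (x : V) : Prop := ∃ (k : ℝ) (ζ : ℂ), ‖ζ‖ = 1 ∧ x = Psi (k, ν, ζ)

lemma thin_Psig (k ν : ℝ) (g : ℂ) : Thin ν (Psig k ν g) := by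
  by_cases h : g = 0
  · exact ⟨0, 1, by simp, by rw [Psig_small _ _ (by simp [h]), Psi_zero]⟩
  · exact ⟨_, _, by simp [h], rfl⟩

/-- The escaping set. -/
def Far (x : V) : Prop := x.2 = 0 ∧ 1 / 2 ≤ ‖x.1‖

lemma far_smul {b : ℝ} (hb : 1 / 2 ≤ b) {η : ℂ} (hη : ‖η‖ = 1) : Far (b • η, 0) :=
  ⟨rfl, by rw [norm_smul, hη, Real.norm_eq_abs, abs_of_pos (by linarith), mul_one]; exact hb⟩

/-- The thickened telescope. -/
def Gam (ν : ℝ) (x : V) : Prop :=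
  x = 0 ∨ ∃ (n : ℕ) (η : ℂ) (c c' : ℝ), ‖η‖ = 1 ∧ 0 ≤ c ∧ 0 ≤ c' ∧
    (Sw ^ n) x = (c • η, c' • η ^ 2) ∧ 1 / 64 ≤ 64 ^ n * U ν x ∧ 64 ^ n * U ν x ≤ 4 ∧
    (64 ^ n * U ν x < 1 / 8 → c = 0)

lemma gam_Psi {k ν : ℝ} {ζ : ℂ} (hζ : ‖ζ‖ = 1) (h : uu k ν ≤ 4) : Gam ν (Psi (k, ν, ζ)) := by
  by_cases hk : k = 0
  · left; rw [hk, Psi_zero]
  obtain ⟨n, h1, h2⟩ := exists_level (a := 1 / 16) (uu_pos hk ν) (by linarith)
  refine Or.inr ⟨n, ζ ^ 2 ^ n, k ^ 2 * bet (64 ^ n * uu k ν), k ^ 2 * alp (64 ^ n * uu k ν),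
    by simp [hζ], mul_nonneg (sq_nonneg _) (bet_nonneg _), mul_nonneg (sq_nonneg _) (alp_nonneg _),
    ?_, ?_, ?_, fun h => ?_⟩
  · rw [Psi_eval hζ n (by linarith) (fun _ => by linarith), map_smul, Swn_Swn, ← pow_mul,
      ← pow_succ]
    simp [mul_assoc]
  · rw [U_Psi hζ]; linarith
  · rw [U_Psi hζ]; linarith
  · rw [U_Psi hζ] at h; rw [bet_of_le (by linarith), mul_zero]

lemma Thin.gam_or_far {ν : ℝ} (h0 : 0 ≤ ν) (h1 : ν ≤ 1) {x : V} (h : Thin ν x) :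
    Gam ν x ∨ Far x := by
  obtain ⟨k, ζ, hζ, rfl⟩ := h
  rcases le_total (uu k ν) 1 with h | h
  · exact Or.inl (gam_Psi hζ (by linarith))
  · right
    rw [Psi_far hζ h]
    refine far_smul ?_ hζ
    by_contra hk
    have h2 := mm_le h0 h1 (t := k ^ 4) (by positivity)
    have h3 : k ^ 4 ≤ 1 / 4 := by nlinarith [sq_nonneg k]
    unfold uu at h
    nlinarith [sq_nonneg k, mm_nonneg ν (t := k ^ 4) (by positivity)]

/-- `L⁻ʲ`. -/
noncomputable def Li (j : ℕ) (y : V) : V := ((1 / 64 : ℝ) ^ j) • (Sw ^ j) y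

lemma Li_zero (y : V) : Li 0 y = y := by simp [Li]
lemma Li_succ (j : ℕ) (y : V) : Li (j + 1) y = Li j ((1 / 64 : ℝ) • Sw y) := by
  rw [Li, Li, Swn_succ, map_smul, smul_smul, pow_succ]
lemma Li_add (j : ℕ) (y z : V) : Li j (y + z) = Li j y + Li j z := by simp [Li]
lemma Li_smul (j : ℕ) (c : ℝ) (y : V) : Li j (c • y) = c • Li j y := by
  simp [Li, smul_comm c]
lemma Li_zero' (j : ℕ) : Li j 0 = 0 := by simp [Li]

lemma Gam.Li {y : V} (h : Gam 1 y) (j : ℕ) : Gam 1 (Li j y) := by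
  rcases h with rfl | ⟨n, η, c, c', hη, hc, hc', e, h1, h2, h3⟩
  · exact Or.inl (Li_zero' j)
  have eU : 64 ^ (n + j) * U 1 (C.Li j y) = 64 ^ n * U 1 y := by
    rw [U_one, U_one, C.Li, nr_smul (by positivity), nr_Swn, pow_add, one_div, inv_pow]
    field_simp
  refine Or.inr ⟨n + j, η, (1 / 64) ^ j * c, (1 / 64) ^ j * c', hη, by positivity, by positivity,
    ?_, by rwa [eU], by rwa [eU], fun h => ?_⟩
  · rw [pow_add, mul_apply_eq_comp, C.Li, map_smul, Swn_Swn, map_smul, e]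
    simp [mul_assoc]
  · rw [eU] at h; rw [h3 h, mul_zero]

lemma gam_form {η : ℂ} (hη : ‖η‖ = 1) {c c' : ℝ} (hc : 0 ≤ c) (hc' : 0 ≤ c')
    (h1 : c ≠ 0 → 1 / 4 ≤ c + c') (h2 : c = 0 → 1 / 64 ≤ c') (h3 : c ^ 2 + c' ^ 2 ≤ 16) :
    Gam 1 (c • η, c' • η ^ 2) := by
  have e : nr (c • η, c' • η ^ 2) ^ 2 = c ^ 2 + c' ^ 2 := by
    rw [nr_sq, q_form _ _ hη (by simp [hη])]
  have h0 := nr_nonneg (c • η, c' • η ^ 2)
  have h4 : c ≠ 0 → 1 / 8 ≤ nr (c • η, c' • η ^ 2) := fun h => by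
    have := h1 h
    by_contra h5
    nlinarith [sq_nonneg (c - c')]
  refine Or.inr ⟨0, η, c, c', hη, hc, hc', rfl, ?_, ?_, fun h => ?_⟩
  · rw [U_one, pow_zero, one_mul]
    by_cases h : c = 0
    · have := h2 h
      by_contra h5
      nlinarith
    · linarith [h4 h]
  · rw [U_one, pow_zero, one_mul]; nlinarith
  · rw [U_one, pow_zero, one_mul] at h
    by_contra h5
    linarith [h4 h5]

end Crest.Agent.R123.C
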