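import Crest.Agent.R123.Push

/-! Row 123: the homotopy `FF` maps the cubic telescope into the good set. -/

set_option autoImplicit false
open scoped Topology
open Real

namespace Crest.Agent.R123.C

lemma thin_band {k : ℝ} {ζ : ℂ} (hζ : ‖ζ‖ = 1) {x : V} (hx : x = Psi (k, 0, ζ)) (σ : ℝ) (n : ℕ)
    {t : ℝ} (ht : t = 64 ^ n * U 0 x) (h1 : 1 / 64 ≤ t) (h2 : t ≤ 32) :
    AA x σ n = Li n (Psi (8 * √t * kp x σ, 1, (ζ ^ 2 ^ n) ^ 2)) ∧
    RR 0 x = Li n ((64 * t * alp t) • (ζ ^ 2 ^ n) ^ 2, (64 * t * bet t) • ζ ^ 2 ^ n) := by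
  have hu : U 0 x = uu k 0 := by rw [hx, U_Psi hζ]
  have hη : ‖ζ ^ 2 ^ n‖ = 1 := by simp [hζ]
  set ρ : ℝ := 4 ^ n * k ^ 2 with hρ
  have hρ0 : 0 ≤ ρ := by positivity
  have hsc : sc n x = ((ρ * bet t) • ζ ^ 2 ^ n, (ρ * alp t) • (ζ ^ 2 ^ n) ^ 2) := by
    rw [sc, hx, Psi_eval hζ n (by rw [← hu, ← ht]; exact h1) (fun _ => by rw [← hu, ← ht]; exact h2),
      ← hu, ← ht, map_smul, Swn_Swn, smul_smul, ← hρ, ← pow_mul, ← pow_succ]
    simp [mul_assoc]
  have hq : q (sc n x) = ρ ^ 2 := by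
    rw [hsc, q_form _ _ hη (by simp [hη]), mul_pow ρ, mul_pow ρ, ← mul_add, bet_sq_add, mul_one]
  have h3 : ρ ^ 3 = t := by
    rw [ht, ← U_sc, U_zero, hq, nr_eq_of_sq hρ0 hq]; ring
  have h4 : 1 / 4 ≤ ρ := by
    by_contra h
    have := pow_lt_pow_left₀ (not_le.1 h) hρ0 (n := 3) (by norm_num)
    norm_num at this
    linarith
  have h5 : ρ ≤ 4 := by
    by_contra h
    have := pow_lt_pow_left₀ (not_le.1 h) (by norm_num) (n := 3) (by norm_num)
    norm_num at this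
    linarith
  have hb := bet_sq_add t
  have ha0 := alp_nonneg t
  have ha1 := alp_le_one t
  constructor
  · rw [AA, ← ht, hsc, GG_form hη (by nlinarith), Psig_smul _ _ _ (by simp [hη])]
    have e1 : 1 / 16 * bet t ^ 2 ≤ (ρ * bet t) ^ 2 := by
      rw [mul_pow]; exact mul_le_mul_of_nonneg_right (by nlinarith) (sq_nonneg _)
    have e2 : 1 / 16 * alp t ^ 2 ≤ ρ * alp t := by nlinarith
    linarith
  · rw [← Li_RR_sc n, RR, mm_zero, hq, hsc, Sw_mk, ← h3]
    congr 1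
    ext <;> simp only [Prod.smul_mk, smul_smul] <;> congr 1 <;> ring

lemma Li_succ_pure (j : ℕ) (b c : ℝ) (η η' : ℂ) :
    Li (j + 1) (b • η, c • η') = Li j ((c / 64) • η', (b / 64) • η) := by
  rw [Li_succ, Sw_mk]
  congr 1
  ext <;> simp only [Prod.smul_mk, smul_smul] <;> congr 1 <;> ring

lemma FF_good {x : V} (hx : Thin 0 x) (hU : U 0 x ≤ 1 / 16) (σ : ℝ) :
    Gam 1 (FF (x, σ)) ∨ Far (FF (x, σ)) := by
  by_cases hx0 : x = 0
  · rw [hx0, FF_zero]; exact Or.inl (Or.inl rfl)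
  obtain ⟨j, h1, h2⟩ := exists_band hx0 (by linarith)
  obtain ⟨k, ζ, hζ, hx⟩ := hx
  rw [FF_eval h1 h2]
  set t := 64 ^ j * U 0 x with ht
  set κ := kp x σ with hκ
  set w := step 4 9 (4096 * t ^ 2) with hw
  set c := c1 κ with hc
  have hw0 : 0 ≤ w := step_nonneg ..
  have hw1 : w ≤ 1 := step_le_one ..
  have hc0 : 0 ≤ c := step_nonneg ..
  have hc1 : c ≤ 1 := step_le_one ..
  have hκ0 : 0 ≤ κ := kp_nonneg ..
  have hκ1 : κ ≤ 1 := kp_le_one ..
  set η := ζ ^ 2 ^ j with hη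
  have nη : ‖η‖ = 1 := by simp [hη, hζ]
  have nη2 : ‖η ^ 2‖ = 1 := by simp [nη]
  obtain ⟨hA, hR⟩ := thin_band hζ hx σ j ht (by linarith) (by linarith)
  rw [← hη] at hA hR
  rw [← hκ] at hA
  set r := 8 * √t * κ with hr
  have hr2 : r ^ 2 = 64 * t * κ ^ 2 := by
    rw [hr, mul_pow, mul_pow, sq_sqrt (by linarith)]; norm_num
  have hκ2 : κ ^ 2 ≤ 1 := pow_le_one₀ hκ0 hκ1
  have hr3 : r ^ 2 ≤ 64 * t := by rw [hr2]; nlinarith
  -- the second term
  have hB : w ≠ 1 → t < 3 / 64 ∧ AA x σ (j + 1) = Li (j + 1) (Psi (8 * r, 1, (η ^ 2) ^ 2)) := by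
    intro h
    have h3 : 4096 * t ^ 2 < 9 := lt_of_step_ne_one (by norm_num) h
    have h4 : t < 3 / 64 := by nlinarith
    refine ⟨h4, ?_⟩
    rw [(thin_band hζ hx σ (j + 1) (t := 64 * t) (by rw [ht]; ring) (by linarith) (by linarith)).1,
      ← hκ, pow_succ 2 j, pow_mul, ← hη, hr]
    have : √(64 * t) = 8 * √t := by
      rw [sqrt_mul (by norm_num), show (64 : ℝ) = 8 ^ 2 by norm_num, sqrt_sq (by norm_num)]
    rw [this]
    congr 3
    ring
  have hB' : w ≠ 1 → 1 / 2 ≤ r ^ 2 → AA x σ (j + 1) = Li j ((0 : ℝ) • η ^ 2, r ^ 2 • (η ^ 2) ^ 2) := by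
    intro h h'
    rw [(hB h).2, Psi_far (by simp [nη]) (by rw [uu_one]; nlinarith), ← zero_smul ℝ (η ^ 2),
      Li_succ_pure]
    congr 3 <;> ring
  by_cases hc' : c = 0
  · rw [hc', zero_smul, zero_add, sub_zero, one_smul]
    by_cases hcase : w = 1 ∨ r ^ 2 ≤ 1 / 2
    · have e : w • AA x σ j + (1 - w) • AA x σ (j + 1) = AA x σ j := by
        by_cases h : w = 1
        · simp [h]
        · rw [(hB h).2, Psi_rec nη2 (hcase.resolve_left h), Li_succ, map_smul, Sw_Sw, smul_smul,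
            show (1 / 64 * 64 : ℝ) = 1 by norm_num, one_smul, ← hA]
          module
      rw [e, hA]
      rcases le_total (r ^ 2) 4 with h4 | h4
      · exact Or.inl ((gam_Psi nη2 (by rwa [uu_one])).Li j)
      · rw [Psi_far nη2 (by rw [uu_one]; linarith)]
        rcases j with _ | i
        · rw [Li_zero]; exact Or.inr (far_smul (by linarith) nη2)
        · rw [← zero_smul ℝ η, Li_succ_pure]
          exact Or.inl ((gam_form nη (by norm_num) (by positivity) (by simp) (fun _ => by linarith)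
            (by nlinarith)).Li i)
    · rw [not_or, not_le] at hcase
      obtain ⟨hw', hr'⟩ := hcase
      have h3 := (hB hw').1
      rw [hB' hw' hr'.le, hA, Psi_eval nη2 0 (by rw [uu_one]; linarith) (by simp), ← Li_smul,
        ← Li_smul, ← Li_add, Swn_zero]
      simp only [pow_zero, one_mul, uu_one, zero_add, pow_one]
      have e : w • r ^ 2 • (bet (r ^ 2) • η ^ 2, alp (r ^ 2) • (η ^ 2) ^ 2) +
          (1 - w) • ((0 : ℝ) • η ^ 2, r ^ 2 • (η ^ 2) ^ 2) =
          ((r ^ 2 * (w * bet (r ^ 2))) • η ^ 2,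
            (r ^ 2 * (w * alp (r ^ 2) + (1 - w))) • (η ^ 2) ^ 2) := by
        ext <;> simp only [Prod.smul_mk, Prod.mk_add_mk] <;> module
      rw [e]
      have b0 := bet_nonneg (r ^ 2)
      have a0 := alp_nonneg (r ^ 2)
      have a1 := alp_le_one (r ^ 2)
      have ab := one_le_bet_add_alp (r ^ 2)
      have ab2 := bet_sq_add (r ^ 2)
      have s1 : 1 ≤ w * bet (r ^ 2) + (w * alp (r ^ 2) + (1 - w)) := by nlinarith
      have s2 : (w * bet (r ^ 2)) ^ 2 + (w * alp (r ^ 2) + (1 - w)) ^ 2 ≤ 1 := by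
        have : w * alp (r ^ 2) * (1 - w) ≤ w * (1 - w) := by
          have := mul_nonneg hw0 (sub_nonneg.2 hw1)
          nlinarith
        have e' : (w * bet (r ^ 2)) ^ 2 + (w * alp (r ^ 2) + (1 - w)) ^ 2 =
            w ^ 2 * (bet (r ^ 2) ^ 2 + alp (r ^ 2) ^ 2) + 2 * (w * alp (r ^ 2) * (1 - w)) +
              (1 - w) ^ 2 := by ring
        rw [e', ab2]
        linarith [show w ^ 2 * 1 + 2 * (w * (1 - w)) + (1 - w) ^ 2 = 1 by ring]
      have p1 : 0 ≤ w * alp (r ^ 2) + (1 - w) := by nlinarith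
      have s3 : 1 / 2 ≤ r ^ 2 * (w * bet (r ^ 2)) + r ^ 2 * (w * alp (r ^ 2) + (1 - w)) := by
        nlinarith
      refine Or.inl ((gam_form nη2 (by positivity) (by positivity) (fun _ => by linarith)
        (fun h => by rw [h] at s3; linarith) ?_).Li j)
      rw [mul_pow, mul_pow (r ^ 2), ← mul_add]
      have : (r ^ 2) ^ 2 ≤ 3 ^ 2 := pow_le_pow_left₀ (sq_nonneg _) (by linarith) 2
      nlinarith [sq_nonneg (r ^ 2)]
  · have hκ3 : 3 / 4 < κ := lt_of_step_ne_zero (by norm_num) hc'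
    have hκ4 : 9 / 16 ≤ κ ^ 2 := by nlinarith
    have hr4 : 36 * t ≤ r ^ 2 := by rw [hr2]; nlinarith
    rw [hA, hR, Psi_far nη2 (by rw [uu_one]; linarith)]
    by_cases hw' : w = 1
    · rw [hw', sub_self, zero_smul, add_zero, one_smul, ← Li_smul, ← Li_smul, ← Li_add]
      have e : c • ((64 * t * alp t) • η ^ 2, (64 * t * bet t) • η) +
          (1 - c) • (r ^ 2 • η ^ 2, (0 : ℂ)) =
          ((c * (64 * t * alp t) + (1 - c) * r ^ 2) • η ^ 2, (c * (64 * t * bet t)) • η) := by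
        ext <;> simp only [Prod.smul_mk, Prod.mk_add_mk] <;> module
      rw [e]
      rcases j with _ | i
      · have h5 : t ≤ 1 / 2 := by rw [ht]; simp; linarith
        rw [Li_zero, bet_of_le h5, alp_of_le h5]
        simp only [mul_zero, zero_smul]
        exact Or.inr (far_smul (by nlinarith) nη2)
      · rw [Li_succ_pure]
        have b0 := bet_nonneg t
        have a0 := alp_nonneg t
        have a1 := alp_le_one t
        have b1 := bet_le_one t
        have ab := one_le_bet_add_alp t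
        have ht0 : 0 ≤ t := by linarith
        have hct : 0 ≤ c * t := mul_nonneg hc0 ht0
        have p1 : 0 ≤ c * (64 * t * alp t) + (1 - c) * r ^ 2 := by
          have := sub_nonneg.2 hc1
          positivity
        have s1 : 36 * t ≤ c * (64 * t * bet t) + (c * (64 * t * alp t) + (1 - c) * r ^ 2) := by
          nlinarith [mul_le_mul_of_nonneg_left ab hct,
            mul_le_mul_of_nonneg_left hr4 (sub_nonneg.2 hc1)]
        have s2 : c * (64 * t * bet t) ≤ 128 := by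
          nlinarith [mul_le_mul_of_nonneg_left b1 hct]
        have s3 : c * (64 * t * alp t) + (1 - c) * r ^ 2 ≤ 128 := by
          nlinarith [mul_le_mul_of_nonneg_left a1 hct,
            mul_le_mul_of_nonneg_left hr3 (sub_nonneg.2 hc1)]
        have p2 : 0 ≤ c * (64 * t * bet t) := by positivity
        refine Or.inl ((gam_form nη (by positivity) (by positivity) (fun h => ?_) (fun h => ?_)
          (by nlinarith)).Li i)
        · have : 1 / 2 < t := by
            by_contra h'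
            exact h (by rw [bet_of_le (not_lt.1 h')]; simp)
          linarith
        · linarith
    · have h3 := (hB hw').1
      rw [hB' hw' (by linarith), bet_of_le (by linarith), alp_of_le (by linarith), ← Li_smul,
        ← Li_smul, ← Li_smul, ← Li_add, ← Li_smul, ← Li_add]
      have e : c • ((64 * t * 1) • η ^ 2, (64 * t * 0) • η) + (1 - c) •
          (w • (r ^ 2 • η ^ 2, (0 : ℂ)) + (1 - w) • ((0 : ℝ) • η ^ 2, r ^ 2 • (η ^ 2) ^ 2)) =
          ((c * (64 * t) + (1 - c) * (w * r ^ 2)) • η ^ 2,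
            ((1 - c) * ((1 - w) * r ^ 2)) • (η ^ 2) ^ 2) := by
        ext <;> simp only [Prod.smul_mk, Prod.mk_add_mk] <;> module
      rw [e]
      have q1 := sub_nonneg.2 hc1
      have q2 := sub_nonneg.2 hw1
      have ht0 : 0 ≤ t := by linarith
      have p1 : 0 ≤ c * (64 * t) + (1 - c) * (w * r ^ 2) := by positivity
      have p2 : 0 ≤ (1 - c) * ((1 - w) * r ^ 2) := by positivity
      have s0 : c * (64 * t) + (1 - c) * (w * r ^ 2) + (1 - c) * ((1 - w) * r ^ 2) =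
          c * (64 * t) + (1 - c) * r ^ 2 := by ring
      have s1 : 1 ≤ c * (64 * t) + (1 - c) * r ^ 2 := by nlinarith
      have s2 : c * (64 * t) + (1 - c) * r ^ 2 ≤ 3 := by nlinarith
      refine Or.inl ((gam_form nη2 p1 p2 (fun _ => by linarith) (fun h => by linarith)
        (by nlinarith)).Li j)

lemma FF_lid {x : V} (hx : Thin 0 x) (hU : U 0 x ≤ 1 / 16) {τ : ℝ} (h0 : 0 ≤ τ) (h1 : τ ≤ 1) :
    Gam 1 (τ • FF (x, 1) + (1 - τ) • Psig (8 * √(U 0 x) * kp x 1) 1 (GG x)) ∨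
      Far (τ • FF (x, 1) + (1 - τ) • Psig (8 * √(U 0 x) * kp x 1) 1 (GG x)) := by
  by_cases hk : kp x 1 = 0
  · rw [FF_eq_zero (by linarith) hk, hk]
    simp only [mul_zero, Psig_zero, smul_zero, add_zero]
    exact Or.inl (Or.inl rfl)
  by_cases hx0 : x = 0
  · rw [hx0, FF_zero, GG_zero, Psig_small _ _ (by simp)]
    simp only [smul_zero, add_zero]
    exact Or.inl (Or.inl rfl)
  have h2 : 9 < 4096 * U 0 x ^ 2 := by
    by_contra h
    exact hk (kp_eq_zero hx0 (by rw [q_cube]; linarith [not_lt.1 h]))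
  have hu := U_nonneg 0 x
  have h3 : 3 / 64 ≤ U 0 x := by nlinarith
  have hA0 : AA x 1 0 = Psig (8 * √(U 0 x) * kp x 1) 1 (GG x) := by simp [AA, Li_zero, sc]
  obtain ⟨k, ζ, hζ, hx⟩ := hx
  obtain ⟨hA, hR⟩ := thin_band hζ hx 1 0 (t := U 0 x) (by simp) (by linarith) (by linarith)
  rw [FF_eval (j := 0) (by simp; linarith) (by simp; linarith),
    step_of_ge (by norm_num) (by simp; linarith), ← hA0]
  set c := c1 (kp x 1) with hc
  have hc0 : 0 ≤ c := step_nonneg ..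
  have hc1 : c ≤ 1 := step_le_one ..
  by_cases hc' : c = 0
  · have e : τ • (c • RR 0 x + (1 - c) • ((1 : ℝ) • AA x 1 0 + (1 - 1 : ℝ) • AA x 1 (0 + 1))) +
        (1 - τ) • AA x 1 0 = AA x 1 0 := by rw [hc']; module
    rw [e, hA0]
    exact (thin_Psig _ _ _).gam_or_far zero_le_one le_rfl
  · have hκ3 : 3 / 4 < kp x 1 := lt_of_step_ne_zero (by norm_num) hc'
    have hκ4 : 9 / 16 ≤ kp x 1 ^ 2 := by nlinarith
    have hr2 : (8 * √(U 0 x) * kp x 1) ^ 2 = 64 * U 0 x * kp x 1 ^ 2 := by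
      rw [mul_pow, mul_pow, sq_sqrt hu]; norm_num
    have nη : ‖(ζ ^ 2 ^ 0) ^ 2‖ = 1 := by simp [hζ]
    have hr3 : 1 ≤ (8 * √(U 0 x) * kp x 1) ^ 2 := by rw [hr2]; nlinarith
    rw [hA, hR, Psi_far nη (by rw [uu_one]; exact hr3), Li_zero, Li_zero,
      bet_of_le (by linarith), alp_of_le (by linarith)]
    set r2 := (8 * √(U 0 x) * kp x 1) ^ 2
    set η := (ζ ^ 2 ^ 0) ^ 2
    have e : τ • (c • ((64 * U 0 x * 1) • η, (64 * U 0 x * 0) • ζ ^ 2 ^ 0) + (1 - c) •
        ((1 : ℝ) • (r2 • η, (0 : ℂ)) + (1 - 1 : ℝ) • AA x 1 (0 + 1))) + (1 - τ) • (r2 • η, (0 : ℂ)) =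
        (((τ * c) * (64 * U 0 x) + (1 - τ * c) * r2) • η, 0) := by
      rw [sub_self, zero_smul, add_zero]
      ext <;> simp only [Prod.smul_mk, Prod.mk_add_mk] <;> module
    rw [e]
    have p1 : 0 ≤ τ * c := mul_nonneg h0 hc0
    have p2 : τ * c ≤ 1 := mul_le_one₀ h1 hc0 hc1
    exact Or.inr (far_smul (by nlinarith) nη)

end Crest.Agent.R123.C
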