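import Crest.Agent.R123.HomSec

/-!
Row 123: singular chains, classes of cycles, and the criterion for a nonzero class on `S2`.
-/

set_option autoImplicit false

namespace Crest.Agent.R123
open CategoryTheory Limits AlgebraicTopology Simplicial

/-- The coefficients. -/
noncomputable abbrev RR : ModuleCat.{0} ℝ := ModuleCat.of ℝ ℝ

/-- The singular chain complex. -/
noncomputable abbrev CC (X : Type) [TopologicalSpace X] : ChainComplex (ModuleCat.{0} ℝ) ℕ :=
  ((singularChainComplexFunctor (ModuleCat.{0} ℝ)).obj RR).obj (TopCat.of X)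

/-- The induced chain map. -/
noncomputable abbrev CM {X Y : Type} [TopologicalSpace X] [TopologicalSpace Y] (f : C(X, Y)) :
    CC X ⟶ CC Y :=
  ((singularChainComplexFunctor (ModuleCat.{0} ℝ)).obj RR).map (TopCat.ofHom f)

variable {X Y Z : Type} [TopologicalSpace X] [TopologicalSpace Y] [TopologicalSpace Z]

/-- The chain of a singular simplex. -/
noncomputable def ch {n : ℕ} (σ : C(Sx n, X)) : RR ⟶ (CC X).X n :=
  (TopCat.toSSet.obj (TopCat.of X)).ιChainComplex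
    (((TopCat.of X).toSSetObjEquiv (Opposite.op ⦋n⦌)).symm σ)

lemma ch_d {n : ℕ} (σ : C(Sx (n + 1), X)) : ch σ ≫ (CC X).d (n + 1) n =
    ∑ i : Fin (n + 2), (-1) ^ (i : ℕ) • ch (σ.comp (fm i.succAbove)) :=
  SSet.ιChainComplex_d _ RR _

lemma ch_map {n : ℕ} (σ : C(Sx n, X)) (f : C(X, Y)) : ch σ ≫ (CM f).f n = ch (f.comp σ) :=
  SSet.ι_chainComplexMap_f _ _ (TopCat.toSSet.map (TopCat.ofHom f)) RR _

lemma ch_ext {n : ℕ} {T : ModuleCat.{0} ℝ} {f g : (CC X).X n ⟶ T}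
    (h : ∀ σ : C(Sx n, X), ch σ ≫ f = ch σ ≫ g) : f = g :=
  SSet.chainComplex_hom_ext fun x => by
    have := h ((TopCat.of X).toSSetObjEquiv (Opposite.op ⦋n⦌) x)
    rwa [ch, Equiv.symm_apply_apply] at this

lemma exists_cochain {n : ℕ} (κ : C(Sx n, X) → ℝ) :
    ∃ k : (CC X).X n ⟶ RR, ∀ σ, ch σ ≫ k = κ σ • 𝟙 RR :=
  ⟨Sigma.desc fun x => κ ((TopCat.of X).toSSetObjEquiv (Opposite.op ⦋n⦌) x) • 𝟙 RR, fun σ => by
    refine (Sigma.ι_desc _ _).trans ?_
    rw [Equiv.apply_symm_apply]⟩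

/-- The class of a 2-cycle. -/
noncomputable def cl (τ : RR ⟶ (CC X).X 2) (h : τ ≫ (CC X).d 2 1 = 0) : RR ⟶ (CC X).homology 2 :=
  (CC X).liftCycles τ 1 (by simp) h ≫ (CC X).homologyπ 2

lemma cyc_map {τ : RR ⟶ (CC X).X 2} (h : τ ≫ (CC X).d 2 1 = 0) (f : C(X, Y)) :
    (τ ≫ (CM f).f 2) ≫ (CC Y).d 2 1 = 0 := by
  rw [Category.assoc, HomologicalComplex.Hom.comm, ← Category.assoc, h, zero_comp]

lemma cl_map {τ : RR ⟶ (CC X).X 2} (h : τ ≫ (CC X).d 2 1 = 0) (f : C(X, Y)) :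
    cl τ h ≫ HomologicalComplex.homologyMap (CM f) 2 = cl (τ ≫ (CM f).f 2) (cyc_map h f) := by
  simp [cl]

lemma cl_two {τ τ' : RR ⟶ (CC X).X 2} (h : τ ≫ (CC X).d 2 1 = 0) (h' : τ' ≫ (CC X).d 2 1 = 0)
    (β : RR ⟶ (CC X).X 3) (hβ : τ + τ - τ' = β ≫ (CC X).d 3 2) : cl τ' h' = cl τ h + cl τ h := by
  have h1 := (CC X).liftCycles_homologyπ_eq_zero_of_boundary (τ + τ - τ') 1 (by simp) β hβ
  have h2 : (CC X).liftCycles (τ + τ - τ') 1 (by simp)
      (by rw [hβ, Category.assoc, (CC X).d_comp_d, comp_zero]) =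
      (CC X).liftCycles τ 1 (by simp) h + (CC X).liftCycles τ 1 (by simp) h -
        (CC X).liftCycles τ' 1 (by simp) h' := by
    simp [← cancel_mono ((CC X).iCycles 2), Preadditive.add_comp, Preadditive.sub_comp]
  rw [h2, Preadditive.sub_comp, Preadditive.add_comp, sub_eq_zero] at h1
  exact h1.symm

lemma cl_ne_zero {τ : RR ⟶ (CC X).X 2} (h : τ ≫ (CC X).d 2 1 = 0) (k : (CC X).X 2 ⟶ RR)
    (hk : (CC X).d 3 2 ≫ k = 0) (h0 : τ ≫ k ≠ 0) : cl τ h ≠ 0 := by
  intro h1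
  apply h0
  have : cl τ h ≫ (CC X).homologyι 2 ≫ (CC X).descOpcycles k 3 (by simp) hk = τ ≫ k := by
    simp [cl]
  rw [← this, h1, zero_comp]

lemma hm_comp (f : C(X, Y)) (g : C(Y, Z)) : HomologicalComplex.homologyMap (CM (g.comp f)) 2 =
    HomologicalComplex.homologyMap (CM f) 2 ≫ HomologicalComplex.homologyMap (CM g) 2 := by
  rw [← HomologicalComplex.homologyMap_comp, ← Functor.map_comp]; rfl

lemma hm_id : HomologicalComplex.homologyMap (CM (ContinuousMap.id X)) 2 = 𝟙 _ := by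
  rw [← HomologicalComplex.homologyMap_id, ← CategoryTheory.Functor.map_id]; rfl

lemma hm_homotopic {f g : C(X, Y)} (h : f.Homotopic g) :
    HomologicalComplex.homologyMap (CM f) 2 = HomologicalComplex.homologyMap (CM g) 2 := by
  obtain ⟨H⟩ := h
  exact TopCat.Homotopy.congr_homologyMap_singularChainComplexFunctor
    (f := TopCat.ofHom f) (g := TopCat.ofHom g) H RR 2

lemma exists_kap : ∃ k : (CC S2).X 2 ⟶ RR, (∀ σ, ch σ ≫ k = kap σ • 𝟙 RR) ∧
    (CC S2).d 3 2 ≫ k = 0 := by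
  obtain ⟨k, hk⟩ := exists_cochain kap
  refine ⟨k, hk, ch_ext fun t => ?_⟩
  have := kap_cocycle t
  rw [← Category.assoc, ch_d, comp_zero, Preadditive.sum_comp]
  simp only [Preadditive.zsmul_comp, hk]
  rw [Fin.sum_univ_four] at this ⊢
  simp only [← Int.cast_smul_eq_zsmul ℝ, smul_smul, ← add_smul]
  push_cast
  rw [this, zero_smul]

/-- The reduction to a class on the sphere. -/
lemma homology_of_class (u : RR ⟶ (CC S2).homology 2) (hu : u ≠ 0)
    (h2 : u ≫ HomologicalComplex.homologyMap (CM sq) 2 = u + u) : HomologyStmt := by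
  intro M _ f i pr hpr hf
  set v := u ≫ HomologicalComplex.homologyMap (CM i) 2 with hv
  have h1 : v ≫ HomologicalComplex.homologyMap (CM f) 2 = v + v := by
    rw [hv, Category.assoc, ← hm_comp, hm_homotopic hf, hm_comp, ← Category.assoc, h2,
      Preadditive.add_comp]
  have h3 : v ≠ 0 := fun h => hu (by
    have : v ≫ HomologicalComplex.homologyMap (CM pr) 2 = u := by
      rw [hv, Category.assoc, ← hm_comp, hpr, hm_id, Category.comp_id]
    rw [← this, h, zero_comp])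
  refine Module.End.hasEigenvalue_of_hasEigenvector (x := v.hom 1) ⟨?_, fun h => h3 ?_⟩
  · rw [Module.End.mem_eigenspace_iff, two_smul]
    exact congrArg (fun φ : RR ⟶ (CC M).homology 2 => φ.hom 1) h1
  · ext; exact h

end Crest.Agent.R123
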