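import Crest.Agent.R123.Defs

/-!
Row 123: a real 2-cocycle on the singular simplices of `S2` (Euler class of the Hopf bundle).
-/

set_option autoImplicit false

namespace Crest.Agent.R123
open Complex

/-- The topological simplex. -/
abbrev Sx (n : ℕ) : Type := stdSimplex ℝ (Fin (n + 1))

/-- The affine map of simplices induced by a map of vertices. -/
noncomputable def fm {m n : ℕ} (f : Fin (m + 1) → Fin (n + 1)) : C(Sx m, Sx n) :=
  ⟨stdSimplex.map f, stdSimplex.continuous_map f⟩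

lemma fm_comp {l m n : ℕ} (f : Fin (l + 1) → Fin (m + 1)) (g : Fin (m + 1) → Fin (n + 1)) :
    (fm g).comp (fm f) = fm (g ∘ f) := by
  ext1 x; exact stdSimplex.map_comp_apply f g x

lemma fm_vertex {m n : ℕ} (f : Fin (m + 1) → Fin (n + 1)) (i : Fin (m + 1)) :
    fm f (stdSimplex.vertex i) = stdSimplex.vertex (f i) := stdSimplex.map_vertex f i

/-- `e` is a nonzero vector of the line over `p`. -/
def InL (p : S2) (e : ℂ × ℂ) : Prop :=
  e ≠ 0 ∧ e.1 * (1 - p.1.2) = e.2 * p.1.1 ∧ e.1 * (starRingEnd ℂ) p.1.1 = e.2 * (1 + p.1.2)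

lemma S2_eq (p : S2) : p.1.1 * (starRingEnd ℂ) p.1.1 = (1 - p.1.2) * (1 + p.1.2) := by
  have h : ‖p.1.1‖ ^ 2 = 1 - p.1.2 ^ 2 := by linarith [p.2]
  rw [mul_conj, normSq_eq_norm_sq, h]; push_cast; ring

lemma exists_inL (p : S2) : ∃ e, InL p e := by
  have h := S2_eq p
  by_cases h1 : (1 + p.1.2 : ℂ) = 0
  · refine ⟨(p.1.1, 1 - p.1.2), fun h2 => ?_, mul_comm _ _, h⟩
    have h3 : (1 - p.1.2 : ℂ) = 0 := congrArg Prod.snd h2
    have : (2 : ℂ) = 0 := by linear_combination h1 + h3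
    norm_num at this
  · refine ⟨(1 + p.1.2, (starRingEnd ℂ) p.1.1), fun h2 => h1 (congrArg Prod.fst h2), ?_,
      mul_comm _ _⟩
    simp only; linear_combination -h

lemma InL.proj {p q : S2} {e : ℂ × ℂ} (he : InL p e) (hd : dist p q < 1) :
    InL q ((1 + q.1.2) * e.1 + q.1.1 * e.2, (starRingEnd ℂ) q.1.1 * e.1 + (1 - q.1.2) * e.2) := by
  obtain ⟨h0, h1, h2⟩ := he
  have h := S2_eq q
  refine ⟨fun h3 => ?_, by simp only; linear_combination (-e.1) * h,
    by simp only; linear_combination e.2 * h⟩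
  have h4 : (1 + q.1.2) * e.1 + q.1.1 * e.2 = 0 := congrArg Prod.fst h3
  have h5 : (starRingEnd ℂ) q.1.1 * e.1 + (1 - q.1.2) * e.2 = 0 := congrArg Prod.snd h3
  rw [Subtype.dist_eq, Prod.dist_eq, max_lt_iff, dist_eq_norm, Real.dist_eq] at hd
  have e1 : 2 * e.1 = ((p.1.2 - q.1.2 : ℝ) : ℂ) * e.1 + (p.1.1 - q.1.1) * e.2 := by
    push_cast; linear_combination h1 + h4
  have e2 : 2 * e.2 = (starRingEnd ℂ) (p.1.1 - q.1.1) * e.1 - ((p.1.2 - q.1.2 : ℝ) : ℂ) * e.2 := by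
    rw [map_sub]; push_cast; linear_combination h5 - h2
  have k1 := norm_add_le (((p.1.2 - q.1.2 : ℝ) : ℂ) * e.1) ((p.1.1 - q.1.1) * e.2)
  have k2 := norm_sub_le ((starRingEnd ℂ) (p.1.1 - q.1.1) * e.1) (((p.1.2 - q.1.2 : ℝ) : ℂ) * e.2)
  rw [← e1] at k1
  rw [← e2] at k2
  simp only [norm_mul, norm_real, Real.norm_eq_abs, norm_conj, Complex.norm_ofNat] at k1 k2
  have k3 : 0 < ‖e.1‖ + ‖e.2‖ := by
    by_contra k4
    have k5 : ‖e.1‖ = 0 := by linarith [norm_nonneg e.1, norm_nonneg e.2]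
    have k6 : ‖e.2‖ = 0 := by linarith [norm_nonneg e.1, norm_nonneg e.2]
    exact h0 (Prod.ext (norm_eq_zero.mp k5) (norm_eq_zero.mp k6))
  nlinarith [mul_pos k3 (sub_pos.mpr hd.1), mul_pos k3 (sub_pos.mpr hd.2)]

/-- `e` is a nowhere vanishing section of the line bundle along `s`. -/
def IsSec {X : Type} [TopologicalSpace X] (s : C(X, S2)) (e : C(X, ℂ × ℂ)) : Prop :=
  ∀ x, InL (s x) (e x)

lemma IsSec.comp {X Y : Type} [TopologicalSpace X] [TopologicalSpace Y] {s : C(X, S2)}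
    {e : C(X, ℂ × ℂ)} (h : IsSec s e) (φ : C(Y, X)) : IsSec (s.comp φ) (e.comp φ) :=
  fun y => h (φ y)

lemma sec_near {X : Type} [TopologicalSpace X] [CompactSpace X] {s s' : C(X, S2)}
    (hd : dist s s' < 1) (h : ∃ e, IsSec s e) : ∃ e, IsSec s' e := by
  obtain ⟨e, he⟩ := h
  refine ⟨⟨fun x => ((1 + (s' x).1.2) * (e x).1 + (s' x).1.1 * (e x).2,
    (starRingEnd ℂ) (s' x).1.1 * (e x).1 + (1 - (s' x).1.2) * (e x).2), by fun_prop⟩, fun x => ?_⟩
  exact (he x).proj ((ContinuousMap.dist_apply_le_dist x).trans_lt hd)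

lemma exists_sec {n : ℕ} (s : C(Sx n, S2)) : ∃ e, IsSec s e := by
  have hc : IsClopen {s : C(Sx n, S2) | ∃ e, IsSec s e} := by
    constructor
    · rw [← isOpen_compl_iff, Metric.isOpen_iff]
      exact fun s hs => ⟨1, one_pos, fun s' hs' h => hs (sec_near hs' h)⟩
    · rw [Metric.isOpen_iff]
      exact fun s hs => ⟨1, one_pos, fun s' hs' => sec_near (by rwa [dist_comm]) hs⟩
  have : ContractibleSpace (Sx n) :=
    (convex_stdSimplex ℝ _).contractibleSpace ⟨_, single_mem_stdSimplex ℝ 0⟩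
  obtain ⟨x0, ⟨H⟩⟩ := id_nullhomotopic (Sx n)
  have h1 := (hc.preimage (s.comp H.toContinuousMap).curry.continuous).eq_univ ⟨1, by
    obtain ⟨e, he⟩ := exists_inL (s x0)
    exact ⟨ContinuousMap.const _ e, fun x => by simpa using he⟩⟩
  have h2 : (s.comp H.toContinuousMap).curry 0 ∈ {s : C(Sx n, S2) | ∃ e, IsSec s e} :=
    h1.ge (Set.mem_univ 0)
  have h3 : (s.comp H.toContinuousMap).curry 0 = s := by ext1 x; simp
  rwa [h3] at h2

/-- A chosen section. -/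
noncomputable def sec {n : ℕ} (s : C(Sx n, S2)) : C(Sx n, ℂ × ℂ) := (exists_sec s).choose

lemma isSec_sec {n : ℕ} (s : C(Sx n, S2)) : IsSec s (sec s) := (exists_sec s).choose_spec

lemma InL.ratio {p : S2} {e e' : ℂ × ℂ} (he : InL p e) (he' : InL p e') :
    (((starRingEnd ℂ) e'.1 * e.1 + (starRingEnd ℂ) e'.2 * e.2) /
      ((starRingEnd ℂ) e'.1 * e'.1 + (starRingEnd ℂ) e'.2 * e'.2)) • e' = e ∧
      (starRingEnd ℂ) e'.1 * e'.1 + (starRingEnd ℂ) e'.2 * e'.2 ≠ 0 := by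
  obtain ⟨-, h1, h2⟩ := he
  obtain ⟨h0, h3, h4⟩ := he'
  have h5 : e.1 * e'.2 = e.2 * e'.1 := by
    linear_combination (e'.2 / 2) * h1 - (e.2 / 2) * h3 - (e.1 / 2) * h4 + (e'.1 / 2) * h2
  have h6 : (starRingEnd ℂ) e'.1 * e'.1 + (starRingEnd ℂ) e'.2 * e'.2 ≠ 0 := by
    intro h7
    rw [← normSq_eq_conj_mul_self, ← normSq_eq_conj_mul_self] at h7
    have h8 : normSq e'.1 + normSq e'.2 = 0 := by exact_mod_cast h7
    have k5 : normSq e'.1 = 0 := by linarith [normSq_nonneg e'.1, normSq_nonneg e'.2]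
    have k6 : normSq e'.2 = 0 := by linarith [normSq_nonneg e'.1, normSq_nonneg e'.2]
    exact h0 (Prod.ext (normSq_eq_zero.mp k5) (normSq_eq_zero.mp k6))
  refine ⟨Prod.ext ?_ ?_, h6⟩
  · simp only [Prod.smul_fst, smul_eq_mul]
    rw [div_mul_eq_mul_div, div_eq_iff h6]
    linear_combination (-(starRingEnd ℂ) e'.2) * h5
  · simp only [Prod.smul_snd, smul_eq_mul]
    rw [div_mul_eq_mul_div, div_eq_iff h6]
    linear_combination ((starRingEnd ℂ) e'.1) * h5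

lemma exists_log {n : ℕ} {s : C(Sx n, S2)} {e e' : C(Sx n, ℂ × ℂ)} (he : IsSec s e)
    (he' : IsSec s e') : ∃ θ : C(Sx n, ℂ), ∀ x, e x = exp (θ x) • e' x := by
  have : ContractibleSpace (Sx n) :=
    (convex_stdSimplex ℝ _).contractibleSpace ⟨_, single_mem_stdSimplex ℝ 0⟩
  have : LocallyPathConnectedSpace (Sx n) := (convex_stdSimplex ℝ _).locallyPathConnectedSpace
  let r : C(Sx n, ℂ) := ⟨fun x => ((starRingEnd ℂ) (e' x).1 * (e x).1 +
    (starRingEnd ℂ) (e' x).2 * (e x).2) / ((starRingEnd ℂ) (e' x).1 * (e' x).1 +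
      (starRingEnd ℂ) (e' x).2 * (e' x).2), Continuous.div (by fun_prop) (by fun_prop)
        fun x => ((he x).ratio (he' x)).2⟩
  have hr : ∀ x, r x • e' x = e x := fun x => ((he x).ratio (he' x)).1
  have hr0 : ∀ x, r x ≠ 0 := fun x h => (he x).1 (by rw [← hr x, h, zero_smul])
  obtain ⟨θ, ⟨-, hθ⟩, -⟩ := isCoveringMapOn_exp.existsUnique_continuousMap_lifts r
    (a₀ := stdSimplex.vertex 0) (exp_log (hr0 _)) hr0
  exact ⟨θ, fun x => by rw [← hr x, ← congrFun hθ x]; rfl⟩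

/-- The increment of the imaginary part along an edge. -/
noncomputable def inc (θ : C(Sx 1, ℂ)) : ℝ :=
  (θ (stdSimplex.vertex 1)).im - (θ (stdSimplex.vertex 0)).im

open Classical in
/-- The relative winding of two sections along an edge. -/
noncomputable def VV (e e' : C(Sx 1, ℂ × ℂ)) : ℝ :=
  if h : ∃ θ : C(Sx 1, ℂ), ∀ x, e x = exp (θ x) • e' x then inc h.choose else 0

lemma VV_eq {e e' : C(Sx 1, ℂ × ℂ)} (h0 : ∀ x, e' x ≠ 0) {θ : C(Sx 1, ℂ)}
    (h : ∀ x, e x = exp (θ x) • e' x) : VV e e' = inc θ := by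
  have h1 : ∃ θ : C(Sx 1, ℂ), ∀ x, e x = exp (θ x) • e' x := ⟨θ, h⟩
  rw [VV, dif_pos h1]
  have h2 := h1.choose_spec
  generalize h1.choose = θ' at h2
  have h3 : ∀ x, exp (θ' x - θ x) = 1 := fun x => by
    rw [exp_sub, smul_left_injective ℂ (h0 x) ((h2 x).symm.trans (h x)), div_self (exp_ne_zero _)]
  have h4 := isCoveringMap_exp.const_of_comp (g := fun x => θ' x - θ x) (by fun_prop)
    (fun a a' => Subtype.ext ((h3 a).trans (h3 a').symm)) (stdSimplex.vertex 1) (stdSimplex.vertex 0)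
  have h5 := congrArg im h4
  simp only [sub_im] at h5
  unfold inc; linarith

lemma VV_smul {s : C(Sx 1, S2)} {e₁ e₂ e' : C(Sx 1, ℂ × ℂ)} (he : IsSec s e₂) (he' : IsSec s e')
    {θ : C(Sx 1, ℂ)} (h : ∀ x, e₁ x = exp (θ x) • e₂ x) : VV e₁ e' = inc θ + VV e₂ e' := by
  obtain ⟨θ', h'⟩ := exists_log he he'
  rw [VV_eq (fun x => (he' x).1) h', VV_eq (fun x => (he' x).1) (θ := θ + θ') (fun x => by
    rw [h, h', smul_smul, ← exp_add]; rfl)]
  simp only [inc, ContinuousMap.add_apply, add_im]; ring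

/-- The contribution of the edge `f` of the simplex `s` with the section `e`. -/
noncomputable def WW {n : ℕ} (s : C(Sx n, S2)) (e : C(Sx n, ℂ × ℂ)) (f : Fin 2 → Fin (n + 1)) : ℝ :=
  VV (e.comp (fm f)) (sec (s.comp (fm f)))

/-- The cocycle. -/
noncomputable def kap (s : C(Sx 2, S2)) : ℝ :=
  WW s (sec s) ![1, 2] - WW s (sec s) ![0, 2] + WW s (sec s) ![0, 1]

lemma kap_eq {s : C(Sx 2, S2)} {e : C(Sx 2, ℂ × ℂ)} (he : IsSec s e) :
    kap s = WW s e ![1, 2] - WW s e ![0, 2] + WW s e ![0, 1] := by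
  obtain ⟨θ, hθ⟩ := exists_log (isSec_sec s) he
  have h : ∀ f : Fin 2 → Fin 3, WW s (sec s) f =
      (θ (stdSimplex.vertex (f 1))).im - (θ (stdSimplex.vertex (f 0))).im + WW s e f := fun f => by
    unfold WW
    rw [VV_smul (he.comp (fm f)) (isSec_sec _) (θ := θ.comp (fm f)) (fun x => hθ _)]
    simp only [inc, ContinuousMap.comp_apply, fm_vertex]
  simp only [kap, h, Matrix.cons_val_zero, Matrix.cons_val_one]
  ring

lemma WW_comp {m n : ℕ} (s : C(Sx n, S2)) (e : C(Sx n, ℂ × ℂ)) (g : Fin (m + 1) → Fin (n + 1))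
    (f : Fin 2 → Fin (m + 1)) : WW (s.comp (fm g)) (e.comp (fm g)) f = WW s e (g ∘ f) := by
  simp only [WW, ContinuousMap.comp_assoc, fm_comp]

lemma kap_cocycle (t : C(Sx 3, S2)) :
    ∑ i : Fin 4, (-1 : ℝ) ^ (i : ℕ) * kap (t.comp (fm i.succAbove)) = 0 := by
  have h : ∀ (g : Fin 3 → Fin 4), kap (t.comp (fm g)) =
      WW t (sec t) ![g 1, g 2] - WW t (sec t) ![g 0, g 2] + WW t (sec t) ![g 0, g 1] := fun g => by
    rw [kap_eq ((isSec_sec t).comp (fm g))]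
    simp only [WW_comp]
    congr 2
    · congr 1; ext i; fin_cases i <;> rfl
    · congr 1; ext i; fin_cases i <;> rfl
    · ext i; fin_cases i <;> rfl
  have e : ∀ i : Fin 4, ∀ j : Fin 3, i.succAbove j =
      ![![1, 2, 3], ![0, 2, 3], ![0, 1, 3], ![0, 1, 2]] i j := by decide
  simp [h, Fin.sum_univ_four, e]
  ring

end Crest.Agent.R123
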