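import Crest.Agent.R123.HomChain

/-!
Row 123: the fundamental class of `S2` is nonzero and is doubled by the squaring map.
-/

set_option autoImplicit false

namespace Crest.Agent.R123
open CategoryTheory Limits Complex

/-- The torus. -/
abbrev T2 : Type := Circle × Circle

/-- `a ↦ e^{2πia}`. -/
noncomputable def EE (a : ℝ) : Circle := Circle.exp (2 * Real.pi * a)

lemma EE_add (a b : ℝ) : EE (a + b) = EE a * EE b := by rw [EE, mul_add, Circle.exp_add]; rfl

lemma EE_int (n : ℤ) : EE n = 1 := by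
  rw [EE, Circle.exp_eq_one]; exact ⟨n, by ring⟩

@[fun_prop] lemma continuous_EE : Continuous EE := by unfold EE; fun_prop

/-- An affine function on a simplex with integer values at the vertices. -/
noncomputable def lin {n : ℕ} (w : Fin (n + 1) → ℤ) (x : Sx n) : ℝ := ∑ i, x i * w i

@[fun_prop] lemma continuous_lin {n : ℕ} (w : Fin (n + 1) → ℤ) : Continuous (lin w) :=
  continuous_finsetSum _ fun i _ =>
    ((continuous_apply i).comp continuous_subtype_val).mul continuous_const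

lemma lin_fm {m n : ℕ} (w : Fin (n + 1) → ℤ) (f : Fin (m + 1) → Fin (n + 1)) (x : Sx m) :
    lin w (fm f x) = lin (w ∘ f) x := by
  simp only [lin, fm, ContinuousMap.coe_mk, stdSimplex.map_coe, FunOnFinite.linearMap_apply_apply,
    Finset.sum_mul, Function.comp]
  rw [← Finset.sum_fiberwise Finset.univ f]
  refine Finset.sum_congr rfl fun j _ => Finset.sum_congr rfl fun i hi => ?_
  rw [(Finset.mem_filter.mp hi).2]

lemma lin_add {n : ℕ} {w w' : Fin (n + 1) → ℤ} {c : ℤ} (h : ∀ i, w i = w' i + c) (x : Sx n) :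
    lin w x = lin w' x + c := by
  simp only [lin, h, Int.cast_add, mul_add, Finset.sum_add_distrib, ← Finset.sum_mul,
    stdSimplex.sum_eq_one, one_mul]

lemma lin_const {n : ℕ} {w : Fin (n + 1) → ℤ} {c : ℤ} (h : ∀ i, w i = c) (x : Sx n) :
    lin w x = c := by
  simp only [lin, h, ← Finset.sum_mul, stdSimplex.sum_eq_one, one_mul]

lemma lin_vertex {n : ℕ} (w : Fin (n + 1) → ℤ) (i : Fin (n + 1)) :
    lin w (stdSimplex.vertex i) = w i := by
  simp [lin, Pi.single_apply]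

lemma lin_mem {n : ℕ} {w : Fin (n + 1) → ℤ} (h : ∀ i, 0 ≤ w i ∧ w i ≤ 1) (x : Sx n) :
    0 ≤ lin w x ∧ lin w x ≤ 1 := by
  constructor
  · exact Finset.sum_nonneg fun i _ => mul_nonneg (stdSimplex.zero_le x i) (by exact_mod_cast (h i).1)
  · rw [← stdSimplex.sum_eq_one x]
    exact Finset.sum_le_sum fun i _ =>
      mul_le_of_le_one_right (stdSimplex.zero_le x i) (by exact_mod_cast (h i).2)

/-- Affine simplices of the torus. -/
noncomputable def AA {n : ℕ} (v : Fin (n + 1) → ℤ × ℤ) : C(Sx n, T2) :=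
  ⟨fun x => (EE (lin (fun i => (v i).1) x), EE (lin (fun i => (v i).2) x)), by fun_prop⟩

lemma AA_fm {m n : ℕ} (v : Fin (n + 1) → ℤ × ℤ) (f : Fin (m + 1) → Fin (n + 1)) :
    (AA v).comp (fm f) = AA (v ∘ f) := by
  ext1 x
  simp only [AA, ContinuousMap.comp_apply, ContinuousMap.coe_mk, lin_fm]
  rfl

lemma AA_eq {n : ℕ} {v w : Fin (n + 1) → ℤ × ℤ} (c : ℤ × ℤ) (h : ∀ i, v i = w i + c) :
    AA v = AA w := by
  ext1 x
  simp only [AA, ContinuousMap.coe_mk]
  rw [lin_add (w := fun i => (v i).1) (w' := fun i => (w i).1) (c := c.1)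
      (fun i => congrArg Prod.fst (h i)),
    lin_add (w := fun i => (v i).2) (w' := fun i => (w i).2) (c := c.2)
      (fun i => congrArg Prod.snd (h i)), EE_add, EE_add,
    EE_int, EE_int, mul_one, mul_one]

/-- `[g]` -/
noncomputable def N1 (g : ℤ × ℤ) : RR ⟶ (CC T2).X 1 := ch (AA ![0, g])
/-- `[g|h]` -/
noncomputable def N2 (g h : ℤ × ℤ) : RR ⟶ (CC T2).X 2 := ch (AA ![0, g, g + h])
/-- `[g|h|k]` -/
noncomputable def N3 (g h k : ℤ × ℤ) : RR ⟶ (CC T2).X 3 := ch (AA ![0, g, g + h, g + h + k])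

lemma N2_d (g h : ℤ × ℤ) : N2 g h ≫ (CC T2).d 2 1 = N1 h - N1 (g + h) + N1 g := by
  rw [N2, ch_d, Fin.sum_univ_three]
  simp only [AA_fm]
  rw [AA_eq (v := _ ∘ Fin.succAbove 0) (w := ![0, h]) g (fun i => by fin_cases i <;> simp [add_comm]),
    AA_eq (v := _ ∘ Fin.succAbove 1) (w := ![0, g + h]) 0 (fun i => by fin_cases i <;> simp),
    AA_eq (v := _ ∘ Fin.succAbove 2) (w := ![0, g]) 0 (fun i => by fin_cases i <;> (simp; try rfl))]
  simp [N1, sub_eq_add_neg]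

lemma N3_d (g h k : ℤ × ℤ) :
    N3 g h k ≫ (CC T2).d 3 2 = N2 h k - N2 (g + h) k + N2 g (h + k) - N2 g h := by
  have e : ∀ i : Fin 4, ∀ j : Fin 3, i.succAbove j =
      ![![1, 2, 3], ![0, 2, 3], ![0, 1, 3], ![0, 1, 2]] i j := by decide
  rw [N3, ch_d, Fin.sum_univ_four]
  simp only [AA_fm]
  rw [AA_eq (v := _ ∘ Fin.succAbove 0) (w := ![0, h, h + k]) g
      (fun i => by fin_cases i <;> simp <;> abel),
    AA_eq (v := _ ∘ Fin.succAbove 1) (w := ![0, g + h, g + h + k]) 0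
      (fun i => by fin_cases i <;> simp [e]),
    AA_eq (v := _ ∘ Fin.succAbove 2) (w := ![0, g, g + (h + k)]) 0
      (fun i => by fin_cases i <;> simp [e, add_assoc]),
    AA_eq (v := _ ∘ Fin.succAbove 3) (w := ![0, g, g + h]) 0 (fun i => by fin_cases i <;> simp [e])]
  have e3 : ((-1 : ℤ)) ^ 3 = -1 := by norm_num
  simp [N2, sub_eq_add_neg, e3]

/-- The fundamental cycle of the torus. -/
noncomputable def tau : RR ⟶ (CC T2).X 2 := N2 (1, 0) (0, 1) - N2 (0, 1) (1, 0)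

lemma tau_d : tau ≫ (CC T2).d 2 1 = 0 := by
  rw [tau, Preadditive.sub_comp, N2_d, N2_d, add_comm ((0, 1) : ℤ × ℤ)]; abel

/-- The double cover of the torus. -/
noncomputable def DD : C(T2, T2) := ⟨fun p => (p.1 * p.1, p.2), by fun_prop⟩

lemma DD_AA {n : ℕ} (v w : Fin (n + 1) → ℤ × ℤ) (h : ∀ i, w i = ((v i).1 + (v i).1, (v i).2)) :
    DD.comp (AA v) = AA w := by
  ext1 x
  simp only [AA, DD, ContinuousMap.comp_apply, ContinuousMap.coe_mk, ← EE_add, h, lin,
    Int.cast_add, mul_add, Finset.sum_add_distrib]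

lemma cl_tau_DD : cl tau tau_d ≫ HomologicalComplex.homologyMap (CM DD) 2 =
    cl tau tau_d + cl tau tau_d := by
  rw [cl_map]
  refine cl_two _ _ (N3 (1, 0) (1, 0) (0, 1) - N3 (1, 0) (0, 1) (1, 0) + N3 (0, 1) (1, 0) (1, 0)) ?_
  have h1 : N2 (1, 0) (0, 1) ≫ (CM DD).f 2 = N2 ((1, 0) + (1, 0)) (0, 1) := by
    rw [N2, ch_map, N2]; exact congrArg ch (DD_AA _ _ (by decide))
  have h2 : N2 (0, 1) (1, 0) ≫ (CM DD).f 2 = N2 (0, 1) ((1, 0) + (1, 0)) := by
    rw [N2, ch_map, N2]; exact congrArg ch (DD_AA _ _ (by decide))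
  rw [Preadditive.add_comp, Preadditive.sub_comp, N3_d, N3_d, N3_d, tau, Preadditive.sub_comp, h1,
    h2, add_comm ((0, 1) : ℤ × ℤ)]
  abel

/-- A degree one map from the torus to the sphere. -/
noncomputable def jj : C(T2, S2) where
  toFun p := ⟨(((max (p.2 : ℂ).im 0 : ℝ) : ℂ) * p.1 + ((max (-(p.2 : ℂ).im) 0 : ℝ) : ℂ),
    (p.2 : ℂ).re), by
      have h := p.2.normSq_coe
      rw [normSq_apply] at h
      rcases le_total 0 (p.2 : ℂ).im with h1 | h1
      · rw [max_eq_left h1, max_eq_right (by linarith)]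
        simp; linarith
      · rw [max_eq_right h1, max_eq_left (by linarith)]
        simp; linarith⟩
  continuous_toFun := by fun_prop

lemma homotopic_of_ne {X : Type} [TopologicalSpace X] (f g : C(X, S2))
    (h : ∀ x, (f x).1 ≠ -(g x).1) : f.Homotopic g := by
  let γ : unitInterval × X → ℂ × ℝ := fun q => (1 - (q.1 : ℝ)) • (f q.2).1 + (q.1 : ℝ) • (g q.2).1
  have hγ : Continuous γ := by fun_prop
  have h0 : ∀ q, 0 < ‖(γ q).1‖ ^ 2 + (γ q).2 ^ 2 := by
    rintro ⟨t, x⟩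
    by_contra h1
    have h2 : ‖(γ (t, x)).1‖ = 0 := by nlinarith [sq_nonneg (γ (t, x)).2, norm_nonneg (γ (t, x)).1]
    have h3 : (γ (t, x)).2 = 0 := by nlinarith [sq_nonneg ‖(γ (t, x)).1‖]
    have h4 : γ (t, x) = 0 := Prod.ext (norm_eq_zero.mp h2) h3
    have h5 : (1 - (t : ℝ)) • (f x).1 = -((t : ℝ) • (g x).1) := eq_neg_of_add_eq_zero_left h4
    have h6 := congrArg (fun p : ℂ × ℝ => ‖p.1‖ ^ 2 + p.2 ^ 2) h5
    simp only [Prod.smul_fst, Prod.smul_snd, Prod.fst_neg, Prod.snd_neg, norm_neg, norm_smul,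
      mul_pow, Real.norm_eq_abs, sq_abs, smul_eq_mul, neg_sq, ← mul_add, (f x).2, (g x).2] at h6
    have h7 : (t : ℝ) = 1 / 2 := by linarith
    rw [h7, ← smul_neg, show (1 : ℝ) - 1 / 2 = 1 / 2 by norm_num] at h5
    exact h x (smul_right_injective _ (by norm_num) h5)
  refine ⟨⟨⟨fun q => ⟨(Real.sqrt (‖(γ q).1‖ ^ 2 + (γ q).2 ^ 2))⁻¹ • γ q, ?_⟩, ?_⟩, fun x => ?_,
    fun x => ?_⟩⟩
  · simp only [Prod.smul_fst, Prod.smul_snd, norm_smul, mul_pow, Real.norm_eq_abs, sq_abs,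
      smul_eq_mul, ← mul_add, inv_pow]
    rw [Real.sq_sqrt (h0 q).le, inv_mul_cancel₀ (h0 q).ne']
  · have h1 : Continuous fun q => (Real.sqrt (‖(γ q).1‖ ^ 2 + (γ q).2 ^ 2))⁻¹ :=
      Continuous.inv₀ (by fun_prop) fun q => (Real.sqrt_pos.mpr (h0 q)).ne'
    exact Continuous.subtype_mk (h1.smul hγ) _
  · ext1; simp [γ, (f x).2]
  · ext1; simp [γ, (g x).2]

lemma sq_jj : (sq.comp jj).Homotopic (jj.comp DD) := by
  refine homotopic_of_ne _ _ fun p h => ?_
  have h1 := congrArg Prod.fst h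
  have h2 := congrArg Prod.snd h
  simp only [sq, jj, DD, ContinuousMap.comp_apply, ContinuousMap.coe_mk, Prod.fst_neg,
    Prod.snd_neg] at h1 h2
  have h3 : (p.2 : ℂ).re = 0 := by
    rw [div_eq_iff (by positivity)] at h2
    have : (p.2 : ℂ).re * (3 + (p.2 : ℂ).re ^ 2) = 0 := by linarith
    exact (mul_eq_zero.mp this).resolve_right (by positivity)
  have h4 := p.2.normSq_coe
  rw [normSq_apply, h3, mul_zero, zero_add, mul_self_eq_one_iff] at h4
  rw [h3] at h1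
  rcases h4 with h4 | h4
  · rw [h4, max_eq_left zero_le_one, max_eq_right (by norm_num)] at h1
    have : (p.1 : ℂ) ^ 2 = 0 := by
      simp only [Circle.coe_mul] at h1; push_cast at h1; linear_combination h1 / 2
    exact p.1.coe_ne_zero (pow_eq_zero_iff two_ne_zero |>.mp this)
  · rw [h4, max_eq_right (by norm_num), max_eq_left (by norm_num)] at h1
    norm_num at h1

/-- An explicit section over the unit square. -/
noncomputable def SS {n : ℕ} (v : Fin (n + 1) → ℤ × ℤ) : C(Sx n, ℂ × ℂ) :=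
  ⟨fun x => (((max (Real.cos (Real.pi * lin (fun i => (v i).2) x)) 0 : ℝ) : ℂ) +
      ((max (-Real.cos (Real.pi * lin (fun i => (v i).2) x)) 0 : ℝ) : ℂ) *
        ((EE (lin (fun i => (v i).1) x) : ℂ))⁻¹,
    ((Real.sin (Real.pi * lin (fun i => (v i).2) x) : ℝ) : ℂ) *
      ((EE (lin (fun i => (v i).1) x) : ℂ))⁻¹), by
    have : Continuous fun x : Sx n => ((EE (lin (fun i => (v i).1) x) : ℂ))⁻¹ :=
      Continuous.inv₀ (by fun_prop) fun x => Circle.coe_ne_zero _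
    fun_prop⟩

lemma SS_fm {m n : ℕ} (v : Fin (n + 1) → ℤ × ℤ) (f : Fin (m + 1) → Fin (n + 1)) :
    (SS v).comp (fm f) = SS (v ∘ f) := by
  ext1 x
  simp only [SS, ContinuousMap.comp_apply, ContinuousMap.coe_mk, lin_fm]
  rfl

lemma isSec_SS {n : ℕ} (v : Fin (n + 1) → ℤ × ℤ) (h : ∀ i, 0 ≤ (v i).2 ∧ (v i).2 ≤ 1) :
    IsSec (jj.comp (AA v)) (SS v) := by
  intro x
  obtain ⟨h0, h1⟩ := lin_mem h x
  simp only [InL, SS, jj, AA, ContinuousMap.comp_apply, ContinuousMap.coe_mk]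
  generalize lin (fun i => (v i).2) x = b at h0 h1
  generalize EE (lin (fun i => (v i).1) x) = u
  have hs : 0 ≤ Real.sin (Real.pi * b) :=
    Real.sin_nonneg_of_nonneg_of_le_pi (by positivity) (by nlinarith [Real.pi_pos])
  have e1 : (EE b : ℂ).im = 2 * Real.sin (Real.pi * b) * Real.cos (Real.pi * b) := by
    rw [EE, Circle.coe_exp, exp_ofReal_mul_I_im, mul_assoc, Real.sin_two_mul]
  have e2 : (EE b : ℂ).re = 2 * Real.cos (Real.pi * b) ^ 2 - 1 := by
    rw [EE, Circle.coe_exp, exp_ofReal_mul_I_re, mul_assoc, Real.cos_two_mul]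
  have e3 := Real.sin_sq_add_cos_sq (Real.pi * b)
  rw [e1, e2]
  generalize Real.sin (Real.pi * b) = s at *
  generalize Real.cos (Real.pi * b) = c at *
  have e4 : (s : ℂ) ^ 2 + c ^ 2 = 1 := by exact_mod_cast e3
  have hu : (u : ℂ)⁻¹ * u = 1 := inv_mul_cancel₀ u.coe_ne_zero
  have hu' : (starRingEnd ℂ) u = (u : ℂ)⁻¹ := by rw [← Circle.coe_inv_eq_conj, Circle.coe_inv]
  have hne : ∀ a : ℂ, a ≠ 0 → ((c : ℂ) * a, (s : ℂ) * (u : ℂ)⁻¹) ≠ 0 := fun a ha h2 => by
    have k1 : (c : ℂ) = 0 := (mul_eq_zero.mp (congrArg Prod.fst h2)).resolve_right ha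
    have k2 : (s : ℂ) = 0 := (mul_eq_zero.mp (congrArg Prod.snd h2)).resolve_right
      (inv_ne_zero u.coe_ne_zero)
    rw [k1, k2] at e4; norm_num at e4
  rcases le_total 0 c with hc | hc
  · rw [max_eq_left hc, max_eq_right (by linarith : -c ≤ 0), max_eq_left (by positivity),
      max_eq_right (by nlinarith : -(2 * s * c) ≤ 0)]
    simp only [map_add, map_mul, conj_ofReal, hu']
    push_cast
    refine ⟨by simpa using hne 1 one_ne_zero, ?_, by ring⟩
    linear_combination (-2 * c) * e4 - (2 * s ^ 2 * c) * hu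
  · rw [max_eq_right hc, max_eq_left (by linarith : 0 ≤ -c), max_eq_right (by nlinarith),
      max_eq_left (by nlinarith : 0 ≤ -(2 * s * c))]
    simp only [map_add, map_mul, conj_ofReal, hu']
    push_cast
    refine ⟨by simpa using hne (-(u : ℂ)⁻¹) (neg_ne_zero.mpr (inv_ne_zero u.coe_ne_zero)), ?_,
      by ring⟩
    linear_combination (2 * c * (u : ℂ)⁻¹) * e4

lemma WW_SS {n : ℕ} (v : Fin (n + 1) → ℤ × ℤ) (f : Fin 2 → Fin (n + 1)) (w w' : Fin 2 → ℤ × ℤ)
    (c : ℤ × ℤ) (h : ∀ i, v (f i) = w i) (h' : ∀ i, w i = w' i + c) :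
    WW (jj.comp (AA v)) (SS v) f = VV (SS w) (sec (jj.comp (AA w'))) := by
  have : v ∘ f = w := funext h
  rw [WW, ContinuousMap.comp_assoc, SS_fm, AA_fm, this, AA_eq c h']

lemma kap_tau : kap (jj.comp (AA ![0, (1, 0), (1, 0) + (0, 1)])) -
    kap (jj.comp (AA ![0, (0, 1), (0, 1) + (1, 0)])) = 2 * Real.pi := by
  rw [kap_eq (isSec_SS _ (by decide)), kap_eq (isSec_SS _ (by decide)),
    WW_SS _ ![1, 2] ![(1, 0), (1, 1)] ![0, (0, 1)] (1, 0) (by decide) (by decide),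
    WW_SS _ ![0, 2] ![0, (1, 1)] ![0, (1, 1)] 0 (by decide) (by decide),
    WW_SS _ ![0, 1] ![0, (1, 0)] ![0, (1, 0)] 0 (by decide) (by decide),
    WW_SS _ ![1, 2] ![(0, 1), (1, 1)] ![0, (1, 0)] (0, 1) (by decide) (by decide),
    WW_SS _ ![0, 2] ![0, (1, 1)] ![0, (1, 1)] 0 (by decide) (by decide),
    WW_SS _ ![0, 1] ![0, (0, 1)] ![0, (0, 1)] 0 (by decide) (by decide)]
  have h1 : SS ![(1, 0), (1, 1)] = SS ![0, (0, 1)] := by
    ext1 x
    simp only [SS, ContinuousMap.coe_mk]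
    rw [lin_add (w := fun i => ((![(1, 0), (1, 1)] : Fin 2 → ℤ × ℤ) i).1)
      (w' := fun i => ((![0, (0, 1)] : Fin 2 → ℤ × ℤ) i).1) (c := 1) (by decide),
      lin_add (w := fun i => ((![(1, 0), (1, 1)] : Fin 2 → ℤ × ℤ) i).2)
      (w' := fun i => ((![0, (0, 1)] : Fin 2 → ℤ × ℤ) i).2) (c := 0) (by decide), EE_add, EE_int]
    simp
  have h2 := VV_smul (e₁ := SS ![(0, 1), (1, 1)]) (isSec_SS ![0, (1, 0)] (by decide)) (isSec_sec _)
    (θ := ⟨fun x => -(((2 * Real.pi * lin ![0, 1] x : ℝ) : ℂ) * I), by fun_prop⟩) (fun x => by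
      simp only [SS, ContinuousMap.coe_mk]
      rw [lin_const (w := fun i => ((![(0, 1), (1, 1)] : Fin 2 → ℤ × ℤ) i).2) (c := 1) (by decide),
        lin_const (w := fun i => ((![0, (1, 0)] : Fin 2 → ℤ × ℤ) i).2) (c := 0) (by decide),
        lin_add (w := fun i => ((![(0, 1), (1, 1)] : Fin 2 → ℤ × ℤ) i).1) (w' := ![0, 1]) (c := 0)
          (by decide), exp_neg, ← Circle.coe_exp]
      simp [EE])
  rw [h1, h2]
  simp [inc, lin_vertex]
  ring

theorem homology : HomologyStmt := by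
  refine homology_of_class (cl tau tau_d ≫ HomologicalComplex.homologyMap (CM jj) 2) ?_ ?_
  · obtain ⟨k, hk, hk'⟩ := exists_kap
    rw [cl_map]
    refine cl_ne_zero _ k hk' ?_
    rw [tau, Preadditive.sub_comp, Preadditive.sub_comp, N2, N2, ch_map, ch_map, hk, hk, ← sub_smul,
      kap_tau]
    intro h
    have := congrArg (fun φ : RR ⟶ RR => φ.hom 1) h
    simp at this
  · rw [Category.assoc, ← hm_comp, hm_homotopic sq_jj, hm_comp, ← Category.assoc, cl_tau_DD,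
      Preadditive.add_comp]

end Crest.Agent.R123
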