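import Crest.Agent.R123.Good

/-! Row 123: the map in the chart `ℂ² × ℝ`. -/

set_option autoImplicit false
open scoped Topology
open Real

namespace Crest.Agent.R123.C

noncomputable def nu (s : ℝ) : ℝ := 1 - step (9 / 20) (1 / 2) s + step (3 / 4) (17 / 20) s
noncomputable def tau (s : ℝ) : ℝ := step (1 / 2) (11 / 20) s
noncomputable def sgc (s : ℝ) : ℝ := 1 - step (3 / 5) (7 / 10) s
noncomputable def sig (s : ℝ) : ℝ := cl (1 / 5 + 4 * (s - 1 / 5))
noncomputable def sig' (s : ℝ) : ℝ := cl (7 / 10 + 4 * (s - 7 / 10))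
noncomputable def chi (t : ℝ) : ℝ := step (2 / 5) (9 / 20) t
noncomputable def psi (x : V) (s : ℝ) : ℝ := step (1 / 256) (1 / 64) (q x * mm (nu s) (q x) ^ 2)
noncomputable def th (x : V) (s : ℝ) : ℝ := (1 - psi x s) * sig s + psi x s * (1 + sig' s)
noncomputable def kq (u : ℝ) : ℝ := 1 - step 1 (16 / 9) (1 / (256 * u ^ 2))
noncomputable def kk (x : V) (s : ℝ) : ℝ :=
  (1 - psi x s) * (8 * √(U (nu s) x) * kq (U (nu s) x)) + psi x s * √(1024 * ‖GG x‖)
noncomputable def JJ (x : V) (s : ℝ) : V := FF (x, sgc s) + RR (nu s) x - RR 0 x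
noncomputable def XX (x : V) (s : ℝ) : V :=
  (1 - chi (th x s)) • ((64 : ℝ) • Sw x) + ((1 - chi (psi x s)) * tau s) • JJ x s +
    (chi (th x s) - (1 - chi (psi x s)) * tau s) •
      Psig (kk x s) (nu (th x s) * nu (th x s - 1)) (GG x)

@[fun_prop] lemma contDiff_nu : ContDiff ℝ 1 nu := by unfold nu; fun_prop
@[fun_prop] lemma contDiffAt_nu (s : ℝ) : ContDiffAt ℝ 1 nu s := contDiff_nu.contDiffAt
@[fun_prop] lemma contDiff_sig' : ContDiff ℝ 1 sig' := by unfold sig'; fun_prop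
@[fun_prop] lemma contDiffAt_sig' (s : ℝ) : ContDiffAt ℝ 1 sig' s := contDiff_sig'.contDiffAt
lemma contDiff_psi : ContDiff ℝ 1 fun p : V × ℝ => psi p.1 p.2 := by unfold psi mm; fun_prop
lemma contDiff_th : ContDiff ℝ 1 fun p : V × ℝ => th p.1 p.2 := by
  have := contDiff_psi
  unfold th sig; fun_prop

lemma contDiff_XX : ContDiff ℝ 1 fun p : V × ℝ => XX p.1 p.2 := by
  have h1 := contDiff_psi
  have h2 := contDiff_th
  have h3 : ContDiff ℝ 1 fun p : V × ℝ => chi (th p.1 p.2) := by unfold chi; fun_prop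
  have h4 : ContDiff ℝ 1 fun p : V × ℝ => (1 - chi (psi p.1 p.2)) * tau p.2 := by
    unfold chi tau; fun_prop
  have h5 : ContDiff ℝ 1 fun p : V × ℝ => JJ p.1 p.2 := by
    unfold JJ sgc
    refine ((contDiff_FF.comp (by fun_prop)).add ?_).sub ?_
    · exact contDiff_RR.comp (f := fun p : V × ℝ => (nu p.2, p.1)) (by fun_prop)
    · exact contDiff_RR.comp (f := fun p : V × ℝ => (0, p.1)) (by fun_prop)
  have h6 : ContDiff ℝ 1 fun p : V × ℝ =>
      Psig (kk p.1 p.2) (nu (th p.1 p.2) * nu (th p.1 p.2 - 1)) (GG p.1) := by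
    rw [contDiff_iff_contDiffAt]
    intro p
    refine contDiffAt_Psig (fun h => ?_) (ContDiff.contDiffAt (by fun_prop)) (by fun_prop)
    have hp : p.1 ≠ 0 := fun h' => h (by rw [h', GG_zero])
    have hU : ContDiffAt ℝ 1 (fun p : V × ℝ => U (nu p.2) p.1) p :=
      contDiffAt_U (by fun_prop) contDiffAt_fst hp
    have hU0 := U_pos (nu p.2) hp
    have e1 := hU.sqrt hU0.ne'
    have e2 : ContDiffAt ℝ 1 (fun p : V × ℝ => 1 / (256 * U (nu p.2) p.1 ^ 2)) p :=
      ContDiffAt.div contDiffAt_const (by fun_prop) (by positivity)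
    have e3 : ContDiffAt ℝ 1 (fun p : V × ℝ => kq (U (nu p.2) p.1)) p := by unfold kq; fun_prop
    have e4 : ContDiffAt ℝ 1 (fun p : V × ℝ => ‖GG p.1‖) p :=
      ContDiffAt.norm ℝ (by fun_prop) h
    have e5 : ContDiffAt ℝ 1 (fun p : V × ℝ => √(1024 * ‖GG p.1‖)) p :=
      (contDiffAt_const.mul e4).sqrt (by have := norm_pos_iff.2 h; positivity)
    have e6 := h1.contDiffAt (x := p)
    unfold kk
    exact ((contDiffAt_const.sub e6).mul ((contDiffAt_const.mul e1).mul e3)).add (e6.mul e5)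
  have h7 : ContDiff ℝ 1 fun p : V × ℝ => (64 : ℝ) • Sw p.1 :=
    (Sw.contDiff.comp contDiff_fst).const_smul _
  exact (((contDiff_const.sub h3).smul h7).add (h4.smul h5)).add ((h3.sub h4).smul h6)

lemma nu_low {s : ℝ} (h : s ≤ 9 / 20) : nu s = 1 := by
  rw [nu, step_of_le (by norm_num) h, step_of_le (by norm_num) (by linarith)]; ring
lemma nu_high {s : ℝ} (h : 17 / 20 ≤ s) : nu s = 1 := by
  rw [nu, step_of_ge (by norm_num) (by linarith), step_of_ge (by norm_num) h]; ring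
lemma nu_mid {s : ℝ} (h : 1 / 2 ≤ s) (h' : s ≤ 3 / 4) : nu s = 0 := by
  rw [nu, step_of_ge (by norm_num) h, step_of_le (by norm_num) h']; ring
lemma nu_nonneg (s : ℝ) : 0 ≤ nu s := by
  unfold nu; linarith [step_le_one (9 / 20) (1 / 2) s, step_nonneg (3 / 4) (17 / 20) s]
lemma nu_le_one (s : ℝ) : nu s ≤ 1 := by
  unfold nu
  rcases le_total s (1 / 2) with h | h
  · rw [step_of_le (a := 3 / 4) (by norm_num) (by linarith)]
    linarith [step_nonneg (9 / 20) (1 / 2) s]
  · rw [step_of_ge (a := 9 / 20) (by norm_num) h]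
    linarith [step_le_one (3 / 4) (17 / 20) s]
lemma tau_low {s : ℝ} (h : s ≤ 1 / 2) : tau s = 0 := step_of_le (by norm_num) h
lemma tau_high {s : ℝ} (h : 11 / 20 ≤ s) : tau s = 1 := step_of_ge (by norm_num) h
lemma sgc_low {s : ℝ} (h : s ≤ 3 / 5) : sgc s = 1 := by
  rw [sgc, step_of_le (by norm_num) h, sub_zero]
lemma sgc_high {s : ℝ} (h : 7 / 10 ≤ s) : sgc s = 0 := by
  rw [sgc, step_of_ge (by norm_num) h, sub_self]
lemma sgc_pow_le (s : ℝ) : sgc s ^ 6 ≤ 1 := by
  refine pow_le_one₀ ?_ ?_ <;> unfold sgc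
  · linarith [step_le_one (3 / 5) (7 / 10) s]
  · linarith [step_nonneg (3 / 5) (7 / 10) s]
lemma sig_low {s : ℝ} (h : s ≤ 3 / 20) : sig s = 0 := cl_of_nonpos (by linarith)
lemma sig_high {s : ℝ} (h : 2 / 5 ≤ s) : sig s = 1 := cl_of_one_le (by linarith)
lemma sig'_low {s : ℝ} (h : s ≤ 1 / 2) : sig' s = 0 := cl_of_nonpos (by linarith)
lemma sig'_high {s : ℝ} (h : 17 / 20 ≤ s) : sig' s = 1 := cl_of_one_le (by linarith)
lemma sig_nonneg (s : ℝ) : 0 ≤ sig s := cl_nonneg _
lemma sig_le_one (s : ℝ) : sig s ≤ 1 := cl_le_one _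
lemma sig'_nonneg (s : ℝ) : 0 ≤ sig' s := cl_nonneg _
lemma sig'_le_one (s : ℝ) : sig' s ≤ 1 := cl_le_one _
lemma chi_low {t : ℝ} (h : t ≤ 2 / 5) : chi t = 0 := step_of_le (by norm_num) h
lemma chi_high {t : ℝ} (h : 9 / 20 ≤ t) : chi t = 1 := step_of_ge (by norm_num) h
lemma psi_nonneg (x : V) (s : ℝ) : 0 ≤ psi x s := step_nonneg ..
lemma psi_le_one (x : V) (s : ℝ) : psi x s ≤ 1 := step_le_one ..
lemma psi_low {x : V} {s : ℝ} (h : U (nu s) x ≤ 1 / 16) : psi x s = 0 := by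
  rw [psi, ← U_sq]
  exact step_of_le (by norm_num) (by nlinarith [U_nonneg (nu s) x])
lemma psi_high {x : V} {s : ℝ} (h : 1 / 8 ≤ U (nu s) x) : psi x s = 1 := by
  rw [psi, ← U_sq]
  exact step_of_ge (by norm_num) (by nlinarith)
lemma psi_eq_zero_iff {x : V} {s : ℝ} : psi x s = 0 ↔ U (nu s) x ≤ 1 / 16 := by
  refine ⟨fun h => ?_, psi_low⟩
  rw [psi, ← U_sq, step, smoothTransition.zero_iff_nonpos, div_nonpos_iff] at h
  rcases h with h | h
  · norm_num at h
  · nlinarith [h.1, U_nonneg (nu s) x]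
lemma psi_of_nr {x : V} (s : ℝ) (h : 1 / 2 ≤ nr x) : psi x s = 1 := by
  refine psi_high ?_
  rcases U_ge (nu s) x with h' | h'
  · have := pow_le_pow_left₀ (by norm_num) h 3
    linarith
  · linarith
lemma nr_lt_of_psi {x : V} {s : ℝ} (h : psi x s ≠ 1) : U 0 x ≤ 2 := by
  have h1 : nr x < 1 / 2 := by
    by_contra h'
    exact h (psi_of_nr s (not_lt.1 h'))
  rw [U_zero, ← nr_sq]
  nlinarith [nr_nonneg x]

lemma JJ_eq {x : V} {s : ℝ} (h : psi x s ≠ 1) (hk : kp x (sgc s) = 1) : JJ x s = RR (nu s) x := by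
  rw [JJ, FF_eq_RR (nr_lt_of_psi h) hk]; abel
lemma kp_zero (x : V) : kp x 0 = 1 := kp_eq_one (by have := q_nonneg x; simp; positivity)

/-- Formula on the lower half. -/
lemma th_low (x : V) {s : ℝ} (h : s ≤ 1 / 2) : th x s = (1 - psi x s) * sig s + psi x s := by
  rw [th, sig'_low h]; ring
lemma th_low_mem (x : V) {s : ℝ} (h : s ≤ 1 / 2) : sig s ≤ th x s ∧ th x s ≤ 1 := by
  rw [th_low x h]
  have := psi_nonneg x s
  have := psi_le_one x s
  have := sig_le_one s
  constructor <;> nlinarith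
lemma XX_low (x : V) {s : ℝ} (h : s ≤ 1 / 2) : XX x s =
    (1 - chi (th x s)) • ((64 : ℝ) • Sw x) + chi (th x s) • Psig (kk x s) (nu (th x s)) (GG x) := by
  rw [XX, tau_low h, nu_low (s := th x s - 1) (by linarith [(th_low_mem x h).2])]
  simp
lemma thin_low {x : V} {s : ℝ} (h : s ≤ 1 / 2) (h' : 9 / 20 ≤ th x s) :
    Thin (nu (th x s)) (XX x s) := by
  rw [XX_low x h, chi_high h']
  simpa using thin_Psig _ _ _
lemma XX_lin {x : V} {s : ℝ} (h : s ≤ 1 / 2) (h' : th x s ≤ 2 / 5) : XX x s = (64 : ℝ) • Sw x := by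
  rw [XX_low x h, chi_low h']
  simp
lemma th_lid {x : V} {s : ℝ} (h : s ≤ 1 / 2) (h' : 2 / 5 ≤ s ∨ psi x s = 1) : th x s = 1 := by
  rw [th_low x h]
  rcases h' with h' | h'
  · rw [sig_high h']; ring
  · rw [h']; ring

/-- Formula on the upper half. -/
lemma th_high (x : V) {s : ℝ} (h : 1 / 2 ≤ s) : th x s = 1 + psi x s * sig' s := by
  rw [th, sig_high (by linarith)]; ring
lemma XX_high (x : V) {s : ℝ} (h : 1 / 2 ≤ s) : XX x s =
    ((1 - chi (psi x s)) * tau s) • JJ x s + (1 - (1 - chi (psi x s)) * tau s) •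
      Psig (kk x s) (nu (psi x s * sig' s)) (GG x) := by
  have h0 := mul_nonneg (psi_nonneg x s) (sig'_nonneg s)
  rw [XX, th_high x h, chi_high (by linarith), nu_high (by linarith)]
  simp
lemma thin_high {x : V} {s : ℝ} (h : 1 / 2 ≤ s) (h' : 9 / 20 ≤ psi x s * sig' s) :
    Thin (nu (psi x s * sig' s)) (XX x s) := by
  have : psi x s * sig' s ≤ psi x s := mul_le_of_le_one_right (psi_nonneg x s) (sig'_le_one s)
  rw [XX_high x h, chi_high (by linarith)]
  simpa using thin_Psig _ _ _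

lemma psi_congr (x : V) {s t : ℝ} (h : nu s = nu t) : psi x s = psi x t := by rw [psi, psi, h]
lemma kk_congr (x : V) {s t : ℝ} (h : nu s = nu t) : kk x s = kk x t := by
  rw [kk, kk, psi_congr x h, h]

lemma ends_low (x : V) {s : ℝ} (h : s ≤ 3 / 20) : th x s = th x 0 ∧ XX x s = XX x 0 := by
  have hn : nu s = nu 0 := by rw [nu_low (by linarith), nu_low (by norm_num)]
  have : th x s = th x 0 := by
    rw [th_low x (by linarith), th_low x (by norm_num), sig_low h, sig_low (by norm_num),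
      psi_congr x hn]
  exact ⟨this, by rw [XX_low x (by linarith), XX_low x (by norm_num), this, kk_congr x hn]⟩

lemma ends_high (x : V) {s : ℝ} (h : 17 / 20 ≤ s) : th x s = th x 0 + 1 ∧ XX x s = XX x 0 := by
  have hn : nu s = nu 0 := by rw [nu_high h, nu_low (by norm_num)]
  have h0 : th x 0 = psi x s := by
    rw [th_low x (by norm_num), sig_low (by norm_num), psi_congr x hn]; ring
  refine ⟨by rw [th_high x (by linarith), sig'_high h, h0]; ring, ?_⟩
  rw [XX_high x (by linarith), XX_low x (by norm_num), h0, tau_high (by linarith), sig'_high h,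
    kk_congr x hn]
  by_cases hp : psi x s = 1
  · rw [hp, chi_high (by norm_num)]; simp
  · rw [JJ_eq hp (by rw [sgc_high (by linarith), kp_zero]), nu_high h, RR_one]
    simp

/-- Formula far from the axis. -/
lemma th_far {x : V} {s : ℝ} (h : psi x s = 1) : th x s = 1 + sig' s := by rw [th, h]; ring
lemma XX_far {x : V} {s : ℝ} (h : psi x s = 1) :
    XX x s = Psig (√(1024 * ‖GG x‖)) (nu (sig' s)) (GG x) := by
  have := sig'_nonneg s
  rw [XX, th_far h, kk, h, chi_high (by linarith), chi_high (by norm_num),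
    nu_high (s := 1 + sig' s) (by linarith)]
  simp

lemma Psig_big {g : ℂ} (h : 1 / 128 ≤ ‖g‖) (ν : ℝ) :
    Psig (√(1024 * ‖g‖)) ν g = (1024 * g, 0) := by
  have hg : (‖g‖ : ℂ) ≠ 0 := by exact_mod_cast (by linarith : ‖g‖ ≠ 0)
  have e : g = ‖g‖ • (g / ‖g‖) := by rw [Complex.real_smul]; field_simp
  have hn : ‖g / (‖g‖ : ℂ)‖ = 1 := by
    rw [norm_div, Complex.norm_real, norm_norm, div_self (by linarith)]
  have e2 : √(1024 * ‖g‖) ^ 2 = 1024 * ‖g‖ := sq_sqrt (by positivity)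
  conv_lhs => enter [3]; rw [e]
  rw [Psig_smul _ _ h hn, Psi_far hn (one_le_uu (by rw [e2]; linarith) _), e2, Complex.real_smul]
  congr 1
  push_cast
  field_simp

lemma Far.nr_ge {x : V} (h : Far x) : 1 / 2 ≤ nr x := by
  rw [nr_eq_of_sq (norm_nonneg x.1) (by simp [q, h.1])]; exact h.2
lemma Far.step {x : V} (h : Far x) (s : ℝ) :
    th x s = 1 + sig' s ∧ XX x s = (1024 * x.1 ^ 2, 0) := by
  have h1 := psi_of_nr s h.nr_ge
  have h2 : GG x = x.1 ^ 2 := by simp [GG, h.1]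
  refine ⟨th_far h1, ?_⟩
  rw [XX_far h1, h2, Psig_big (by rw [norm_pow]; nlinarith [h.2])]
lemma Far.far {x : V} (h : Far x) (s : ℝ) : Far (XX x s) := by
  rw [(h.step s).2]
  refine ⟨rfl, ?_⟩
  simp only [norm_mul, norm_pow, Complex.norm_ofNat]
  nlinarith [h.2]

lemma kq_eq_one {u : ℝ} (h : 1 / 16 ≤ u) : kq u = 1 := by
  rw [kq, step_of_le (by norm_num) (div_le_one_of_le₀ (by nlinarith) (by positivity)), sub_zero]

/-- The shell lemma. -/
lemma Gam.shell {x : V} {s : ℝ} (hs : 1 / 2 ≤ s) (h : Gam (nu s) x) (hp : psi x s ≠ 0) :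
    Far (XX x s) := by
  have hU : 1 / 16 < U (nu s) x := not_le.1 fun h' => hp (psi_low h')
  rcases h with rfl | ⟨n, η, c, c', hη, hc, hc', e, h1, h2, h3⟩
  · norm_num at hU
  have hn : n = 0 := by
    by_contra hn
    have : (64 : ℝ) ^ 1 ≤ 64 ^ n := pow_le_pow_right₀ (by norm_num) (by omega)
    nlinarith
  subst hn
  simp only [pow_zero, one_mul] at h1 h2 h3
  rw [Swn_zero] at e
  have nη : ‖η ^ 2‖ = 1 := by simp [hη]
  have hq : nr x ^ 2 = c ^ 2 + c' ^ 2 := by rw [nr_sq, e, q_form _ _ hη nη]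
  have hr0 := nr_nonneg x
  have hr1 : nr x ≤ 16 := by
    by_contra h'
    rcases U_ge (nu s) x with h'' | h''
    · have := pow_le_pow_left₀ (by norm_num) (not_le.1 h').le 3
      linarith
    · linarith [not_le.1 h']
  have hle := U_le (nu_nonneg s) (nu_le_one s) x
  have hg : GG x = (c ^ 2 + c') • η ^ 2 := by rw [e, GG_form hη (by nlinarith)]
  have hd : 1 / 128 ≤ c ^ 2 + c' := by
    by_cases hc0 : c = 0
    · have : nr x = c' := nr_eq_of_sq hc' (by rw [← nr_sq, hq, hc0]; ring)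
      rw [this] at hle
      by_contra h'
      nlinarith
    · have h4 : 1 / 8 ≤ U (nu s) x := not_lt.1 fun h' => hc0 (h3 h')
      have h5 : 1 / 9 ≤ nr x := by
        by_contra h'
        nlinarith
      rcases le_total c' 1 with h6 | h6 <;> nlinarith [sq_nonneg c]
  have hgn : ‖GG x‖ = c ^ 2 + c' := by
    rw [hg, norm_smul, nη, mul_one, Real.norm_eq_abs, abs_of_pos (by linarith)]
  have hk : 2 ≤ kk x s := by
    have a1 : 1 / 4 ≤ √(U (nu s) x) := le_sqrt_of_sq_le (by linarith)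
    have a2 : 2 ≤ √(1024 * ‖GG x‖) := le_sqrt_of_sq_le (by rw [hgn]; linarith)
    have := psi_nonneg x s
    have := psi_le_one x s
    rw [kk, kq_eq_one hU.le]
    nlinarith
  have hk2 : 4 ≤ kk x s ^ 2 := by nlinarith
  rw [XX_high x hs, hg, Psig_smul _ _ hd nη, Psi_far nη (one_le_uu hk2 _)]
  by_cases hp1 : psi x s = 1
  · rw [hp1, chi_high (by norm_num), sub_self, zero_mul, zero_smul, sub_zero, one_smul, zero_add]
    exact far_smul (by linarith) nη
  have hU1 : U (nu s) x < 1 / 8 := not_le.1 fun h' => hp1 (psi_high h')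
  have hc0 := h3 hU1
  have hkp : kp x (sgc s) = 1 := by
    rcases le_total s (3 / 4) with h' | h'
    · rw [nu_mid hs h'] at hU
      exact kp_eq_one (by rw [q_cube]; nlinarith [sgc_pow_le s])
    · rw [sgc_high (by linarith), kp_zero]
  have hR : RR (nu s) x = ((64 * U (nu s) x) • η ^ 2, 0) := by
    have : nr x = c' := nr_eq_of_sq hc' (by rw [← nr_sq, hq, hc0]; ring)
    rw [RR, U, this]
    conv_lhs => enter [2]; rw [e, hc0]
    ext <;> simp only [Sw_mk, Prod.smul_mk, smul_smul, zero_smul, smul_zero]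
    congr 1; ring
  rw [JJ_eq hp1 hkp, hR]
  set a := (1 - chi (psi x s)) * tau s
  have a0 : 0 ≤ a := mul_nonneg (sub_nonneg.2 (step_le_one ..)) (step_nonneg ..)
  have a1 : a ≤ 1 := mul_le_one₀ (sub_le_self _ (step_nonneg ..)) (step_nonneg ..) (step_le_one ..)
  have e2 : a • ((64 * U (nu s) x) • η ^ 2, (0 : ℂ)) + (1 - a) • (kk x s ^ 2 • η ^ 2, (0 : ℂ)) =
      ((a * (64 * U (nu s) x) + (1 - a) * kk x s ^ 2) • η ^ 2, 0) := by
    ext <;> simp only [Prod.smul_mk, Prod.mk_add_mk] <;> module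
  rw [e2]
  exact far_smul (by nlinarith) nη

lemma Gam.RR {ν : ℝ} {x : V} (h : Gam ν x) (hU : U ν x ≤ 1 / 16) :
    Gam 1 (RR ν x) ∨ Far (RR ν x) := by
  rcases h with rfl | ⟨n, η, c, c', hη, hc, hc', e, h1, h2, h3⟩
  · rw [RR_zero]; exact Or.inl (Or.inl rfl)
  have hm := mm_nonneg ν (q_nonneg x)
  rcases n with _ | n
  · simp only [pow_zero, one_mul] at h1 h2 h3
    rw [Swn_zero] at e
    have hc0 := h3 (by linarith)
    have nη : ‖η ^ 2‖ = 1 := by simp [hη]
    have : nr x = c' := nr_eq_of_sq hc' (by rw [e, q_form _ _ hη nη, hc0]; ring)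
    have hR : C.RR ν x = ((64 * U ν x) • η ^ 2, 0) := by
      rw [C.RR, U, this]
      conv_lhs => enter [2]; rw [e, hc0]
      ext <;> simp only [Sw_mk, Prod.smul_mk, smul_smul, zero_smul, smul_zero]
      congr 1; ring
    rw [hR]
    exact Or.inr (far_smul (by linarith) nη)
  · have eU : 64 ^ n * U 1 (C.RR ν x) = 64 ^ (n + 1) * U ν x := by rw [U_one, nr_RR]; ring
    refine Or.inl (Or.inr ⟨n, η, 64 * mm ν (q x) * c, 64 * mm ν (q x) * c', hη, by positivity,
      by positivity, ?_, by rwa [eU], by rwa [eU], fun h => ?_⟩)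
    · rw [C.RR, map_smul, ← Swn_succ, e]
      simp only [Prod.smul_mk, smul_smul]
    · rw [eU] at h; rw [h3 h, mul_zero]

lemma XX_top {x : V} (hp : psi x 1 = 0) : XX x 1 = (64 : ℝ) • Sw x := by
  rw [(ends_high x (by norm_num)).2, XX_lin (by norm_num)]
  rw [th_low x (by norm_num), sig_low (by norm_num),
    psi_congr x (t := 1) (by rw [nu_low (by norm_num), nu_high (by norm_num)]), hp]
  norm_num

lemma Thin.core {x : V} {s : ℝ} (hs : 1 / 2 ≤ s) (h : Thin (nu s) x) (hp : psi x s = 0) :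
    Gam 1 (XX x s) ∨ Far (XX x s) := by
  have hU := psi_eq_zero_iff.1 hp
  rw [XX_high x hs, hp, chi_low (by norm_num), zero_mul, nu_low (by norm_num), sub_zero, one_mul]
  rcases le_total s (3 / 5) with h1 | h1
  · have hn := nu_mid hs (by linarith)
    have e1 : JJ x s = FF (x, 1) := by rw [JJ, hn, sgc_low h1]; abel
    have e2 : kk x s = 8 * √(U 0 x) * kp x 1 := by
      rw [kk, hp, hn, kq, kp, q_cube]; simp
    rw [e1, e2]
    rw [hn] at h hU
    exact FF_lid h hU (step_nonneg ..) (step_le_one ..)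
  rw [tau_high (by linarith), sub_self, zero_smul, one_smul, add_zero]
  rcases le_total s (3 / 4) with h2 | h2
  · have hn := nu_mid hs h2
    have e1 : JJ x s = FF (x, sgc s) := by rw [JJ, hn]; abel
    rw [e1]
    rw [hn] at h hU
    exact FF_good h hU _
  · rw [JJ_eq (by rw [hp]; norm_num) (by rw [sgc_high (by linarith), kp_zero])]
    rcases h.gam_or_far (nu_nonneg s) (nu_le_one s) with h | h
    · exact h.RR hU
    · exfalso
      have := psi_of_nr s h.nr_ge
      rw [hp] at this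
      norm_num at this

end Crest.Agent.R123.C
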