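import Crest.Agent.R123.Defs

/-!
Row 123: the smooth structure on `S² × S² × S¹` modelled on `ℝ⁵`.
-/

set_option autoImplicit false
open scoped Manifold ContDiff Topology
open Set

namespace Crest.Agent.R123

section transport
variable {E F H M N : Type} [NormedAddCommGroup E] [NormedSpace ℝ E] [NormedAddCommGroup F]
  [NormedSpace ℝ F] [TopologicalSpace H] [TopologicalSpace M] [TopologicalSpace N]
  (I : ModelWithCorners ℝ E H) [I.Boundaryless] [ChartedSpace H N] (φ : M ≃ₜ N) (L : E ≃L[ℝ] F)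

/-- transported chart -/
noncomputable def trChart (e : OpenPartialHomeomorph N H) : OpenPartialHomeomorph M F :=
  (φ.toOpenPartialHomeomorph ≫ₕ e) ≫ₕ
    (I.toHomeomorph.trans L.toHomeomorph).toOpenPartialHomeomorph

/-- transported charted space -/
@[reducible] noncomputable def trCharted : ChartedSpace F M where
  atlas := trChart I φ L '' atlas H N
  chartAt x := trChart I φ L (chartAt H (φ x))
  mem_chart_source x := by simp [trChart]
  chart_mem_atlas x := ⟨_, chart_mem_atlas H (φ x), rfl⟩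

theorem trManifold [IsManifold I ∞ N] :
    letI := trCharted I φ L
    IsManifold 𝓘(ℝ, F) ∞ M := by
  let := trCharted I φ L
  refine isManifold_of_contDiffOn _ _ _ ?_
  rintro _ _ ⟨e, he, rfl⟩ ⟨e', he', rfl⟩
  have h := (contDiffGroupoid ∞ I).compatible he he'
  rw [contDiffGroupoid, mem_groupoid_of_pregroupoid] at h
  have h1 : ContDiffOn ℝ ∞ (I ∘ e.symm ≫ₕ e' ∘ I.symm)
    (I.symm ⁻¹' (e.symm ≫ₕ e').source ∩ range I) := h.1
  have h2 := L.contDiff.comp_contDiffOn (h1.comp L.symm.contDiff.contDiffOn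
    (s := L.symm ⁻¹' (I.symm ⁻¹' (e.symm ≫ₕ e').source ∩ range I)) (fun _ hx => hx))
  refine (h2.mono ?_).congr ?_
  · intro x hx
    simp only [I.range_eq_univ, inter_univ]
    simpa [trChart, ModelWithCorners.toHomeomorph] using hx
  · intro x _
    simp [trChart, ModelWithCorners.toHomeomorph]

theorem trContMDiff (f : M → M) (hf : ContMDiff I I 1 (φ ∘ f ∘ φ.symm)) :
    letI := trCharted I φ L
    ContMDiff 𝓘(ℝ, F) 𝓘(ℝ, F) 1 f := by
  let := trCharted I φ L
  intro x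
  have h := contMDiffAt_iff.1 (hf (φ x))
  have hc : Continuous f := by
    have := φ.symm.continuous.comp (hf.continuous.comp φ.continuous)
    convert this using 1
    funext y; simp
  refine contMDiffAt_iff.2 ⟨hc.continuousAt, ?_⟩
  have h2 := h.2
  rw [I.range_eq_univ, contDiffWithinAt_univ] at h2
  rw [(𝓘(ℝ, F)).range_eq_univ, contDiffWithinAt_univ]
  have e1 : extChartAt 𝓘(ℝ, F) x x = L (extChartAt I (φ x) (φ x)) := rfl
  have e2 : extChartAt 𝓘(ℝ, F) (f x) ∘ f ∘ (extChartAt 𝓘(ℝ, F) x).symm =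
      L ∘ (extChartAt I ((φ ∘ f ∘ φ.symm) (φ x)) ∘ (φ ∘ f ∘ φ.symm) ∘
        (extChartAt I (φ x)).symm) ∘ L.symm := by
    simp only [Function.comp_apply, Homeomorph.symm_apply_apply]
    rfl
  rw [e1, e2]
  refine L.contDiff.contDiffAt.comp _ (ContDiffAt.comp _ ?_ L.symm.contDiff.contDiffAt)
  rwa [ContinuousLinearEquiv.symm_apply_apply]

end transport

/-- the Euclidean space `ℂ × ℝ` -/
abbrev V3 : Type := WithLp 2 (ℂ × ℝ)

instance factV3 : Fact (Module.finrank ℝ V3 = 2 + 1) :=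
  ⟨by rw [(WithLp.linearEquiv 2 ℝ (ℂ × ℝ)).finrank_eq]; simp⟩

/-- the linear identification -/
noncomputable def T3 : V3 ≃L[ℝ] ℂ × ℝ := WithLp.prodContinuousLinearEquiv 2 ℝ ℂ ℝ

lemma mem_sphere_iff (v : V3) :
    v ∈ Metric.sphere (0 : V3) 1 ↔ ‖(T3 v).1‖ ^ 2 + (T3 v).2 ^ 2 = 1 := by
  rw [mem_sphere_zero_iff_norm, ← sq_eq_sq₀ (norm_nonneg _) zero_le_one,
    WithLp.prod_norm_sq_eq_of_L2, one_pow, Real.norm_eq_abs, sq_abs]
  rfl

/-- the two models of the 2-sphere -/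
noncomputable def sphereHomeo : S2 ≃ₜ Metric.sphere (0 : V3) 1 :=
  (T3.toHomeomorph.subtype fun v => mem_sphere_iff v).symm

theorem package : PackageStmt := by
  intro f hf
  have : Fact (Module.finrank ℝ ℂ = 1 + 1) := finrank_real_complex_fact'
  let φ : M5 ≃ₜ Metric.sphere (0 : V3) 1 × Metric.sphere (0 : V3) 1 × Circle :=
    sphereHomeo.prodCongr (sphereHomeo.prodCongr (Homeomorph.refl _))
  let I := (𝓡 2).prod ((𝓡 2).prod (𝓡 1))
  let L : (EuclideanSpace ℝ (Fin 2) × EuclideanSpace ℝ (Fin 2) × EuclideanSpace ℝ (Fin 1)) ≃L[ℝ]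
    EuclideanSpace ℝ (Fin 5) := ContinuousLinearEquiv.ofFinrankEq (by simp)
  refine ⟨trCharted I φ L, trManifold I φ L, trContMDiff I φ L f ?_⟩
  have hemb : ContMDiff I 𝓘(ℝ, E8) 1 (emb ∘ φ.symm) := by
    have h1 : ContMDiff (𝓡 2) 𝓘(ℝ, ℂ × ℝ) 1 fun v : Metric.sphere (0 : V3) 1 => T3 v.1 :=
      T3.contDiff.comp_contMDiff contMDiff_coe_sphere
    have h2 : ContMDiff (𝓡 1) 𝓘(ℝ, ℂ) 1 fun v : Circle => (v : ℂ) := contMDiff_coe_sphere
    have h3 : ContMDiff I 𝓘(ℝ, E8) 1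
        fun y : Metric.sphere (0 : V3) 1 × Metric.sphere (0 : V3) 1 × Circle =>
          ((T3 y.1.1, T3 y.2.1.1, (y.2.2 : ℂ)) : E8) :=
      (h1.comp contMDiff_fst).prodMk_space (((h1.comp contMDiff_fst).comp
        contMDiff_snd).prodMk_space ((h2.comp contMDiff_snd).comp contMDiff_snd))
    exact h3
  have hg : ContMDiff I 𝓘(ℝ, E8) 1 (emb ∘ f ∘ φ.symm) := by
    intro y
    obtain ⟨g, hg, hev⟩ := hf (φ.symm y)
    refine (hg.comp_contMDiffAt (f := emb ∘ φ.symm) (hemb y)).congr_of_eventuallyEq ?_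
    exact (φ.symm.continuous.tendsto y).eventually hev
  have k1 : ContMDiff I 𝓘(ℝ, V3) 1 fun y => T3.symm (emb (f (φ.symm y))).1 :=
    (T3.symm.contDiff.comp contDiff_fst).comp_contMDiff hg
  have k2 : ContMDiff I 𝓘(ℝ, V3) 1 fun y => T3.symm (emb (f (φ.symm y))).2.1 :=
    (T3.symm.contDiff.comp (contDiff_fst.comp contDiff_snd)).comp_contMDiff hg
  have k3 : ContMDiff I 𝓘(ℝ, ℂ) 1 fun y => (emb (f (φ.symm y))).2.2 :=
    (contDiff_snd.comp contDiff_snd).comp_contMDiff hg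
  exact (k1.codRestrict_sphere (n := 2) fun y => (φ (f (φ.symm y))).1.2).prodMk
    ((k2.codRestrict_sphere (n := 2) fun y => (φ (f (φ.symm y))).2.1.2).prodMk
      (k3.codRestrict_sphere (n := 1) fun y => (φ (f (φ.symm y))).2.2.2))

end Crest.Agent.R123
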