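import Crest.Agent.R123.Eval

/-! Row 123: the multi-scale homotopy `FF` which pushes the cubic telescope into the good set. -/

set_option autoImplicit false
open scoped Topology
open Real

namespace Crest.Agent.R123.C

noncomputable def GG (x : V) : ℂ := x.1 ^ 2 + (1 - step 256 400 (q x)) • x.2
@[fun_prop] lemma contDiff_GG : ContDiff ℝ 1 GG := by
  unfold GG
  have h : ContDiff ℝ 1 fun x : V => 1 - step 256 400 (q x) := by fun_prop
  exact (contDiff_fst.pow 2).add (h.smul contDiff_snd)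
@[fun_prop] lemma contDiffAt_GG (x : V) : ContDiffAt ℝ 1 GG x := contDiff_GG.contDiffAt
@[simp] lemma GG_zero : GG 0 = 0 := by simp [GG]
lemma GG_far {x : V} (h : 400 ≤ q x) : GG x = x.1 ^ 2 := by
  rw [GG, step_of_ge (by norm_num) h]; simp
lemma GG_form {c c' : ℝ} {η : ℂ} (hη : ‖η‖ = 1) (h : c ^ 2 + c' ^ 2 ≤ 256) :
    GG (c • η, c' • η ^ 2) = (c ^ 2 + c') • η ^ 2 := by
  rw [GG, q_form _ _ hη (by simp [hη]), step_of_le (by norm_num) h]
  simp only [Complex.real_smul]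
  push_cast
  ring

noncomputable def RR (ν : ℝ) (x : V) : V := (64 * mm ν (q x)) • Sw x
@[simp] lemma RR_zero (ν : ℝ) : RR ν 0 = 0 := by simp [RR]
lemma RR_one (x : V) : RR 1 x = (64 : ℝ) • Sw x := by simp [RR, mm_one]
lemma nr_RR (ν : ℝ) (x : V) : nr (RR ν x) = 64 * U ν x := by
  rw [RR, nr_smul (by linarith [mm_nonneg ν (q_nonneg x)]), nr_Sw, U]; ring
lemma contDiff_RR : ContDiff ℝ 1 fun p : ℝ × V => RR p.1 p.2 := by
  unfold RR mm
  have h : ContDiff ℝ 1 fun p : ℝ × V => 64 * (p.1 ^ 4 + om p.1 * q p.2) := by fun_prop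
  exact h.smul (Sw.contDiff.comp contDiff_snd)

noncomputable def kp (x : V) (σ : ℝ) : ℝ := 1 - step 1 (16 / 9) (σ ^ 6 / (256 * q x ^ 3))
lemma kp_nonneg (x : V) (σ : ℝ) : 0 ≤ kp x σ := by
  unfold kp; linarith [step_le_one 1 (16 / 9) (σ ^ 6 / (256 * q x ^ 3))]
lemma kp_le_one (x : V) (σ : ℝ) : kp x σ ≤ 1 := by
  unfold kp; linarith [step_nonneg 1 (16 / 9) (σ ^ 6 / (256 * q x ^ 3))]
noncomputable def c1 (t : ℝ) : ℝ := step (3 / 4) 1 t
noncomputable def xi (v : ℝ) : ℝ := step 4 9 (4096 * v) - step 4 9 v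

noncomputable def Mt (p : V × ℝ) : V :=
  xi (q p.1 ^ 3) • (c1 (kp p.1 p.2) • RR 0 p.1 +
    (1 - c1 (kp p.1 p.2)) • Psig (8 * √(U 0 p.1) * kp p.1 p.2) 1 (GG p.1))

lemma xi_small {v : ℝ} (h : v ≤ 1 / 1024) : xi v = 0 := by
  rcases le_total v 0 with h0 | h0
  all_goals rw [xi, step_of_le (by norm_num) (by linarith), step_of_le (by norm_num) (by linarith),
    sub_zero]
lemma xi_big {v : ℝ} (h : 9 ≤ v) : xi v = 0 := by
  rw [xi, step_of_ge (by norm_num) (by linarith), step_of_ge (by norm_num) (by linarith), sub_self]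

lemma contDiffAt_U {E : Type*} [NormedAddCommGroup E] [NormedSpace ℝ E] {ν : E → ℝ} {X : E → V}
    {y : E} (hν : ContDiffAt ℝ 1 ν y) (hX : ContDiffAt ℝ 1 X y) (h : X y ≠ 0) :
    ContDiffAt ℝ 1 (fun z => U (ν z) (X z)) y := by
  unfold U mm
  have h1 : ContDiffAt ℝ 1 (fun z => nr (X z)) y := (contDiffAt_nr h).comp y hX
  fun_prop

lemma contDiff_Mt : ContDiff ℝ 1 Mt := by
  rw [contDiff_iff_contDiffAt]
  intro p
  by_cases h : p.1 = 0
  · have hc : ContinuousAt (fun p : V × ℝ => q p.1 ^ 3) p :=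
      ((contDiff_q.continuous.comp continuous_fst).pow 3).continuousAt
    have : ∀ᶠ y in 𝓝 p, q y.1 ^ 3 < 1 / 1024 := hc.eventually (gt_mem_nhds (by simp [h]))
    refine (contDiffAt_const (c := (0 : V))).congr_of_eventuallyEq ?_
    filter_upwards [this] with y hy
    rw [Mt, xi_small hy.le, zero_smul]
  · have hq := q_pos h
    have h1 : ContDiffAt ℝ 1 (fun p : V × ℝ => kp p.1 p.2) p := by
      unfold kp
      have : ContDiffAt ℝ 1 (fun p : V × ℝ => p.2 ^ 6 / (256 * q p.1 ^ 3)) p :=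
        ContDiffAt.div (by fun_prop) (by fun_prop) (by positivity)
      fun_prop
    have h2 : ContDiffAt ℝ 1 (fun p : V × ℝ => c1 (kp p.1 p.2)) p := by unfold c1; fun_prop
    have h3 : ContDiffAt ℝ 1 (fun p : V × ℝ => xi (q p.1 ^ 3)) p := by unfold xi; fun_prop
    have h4 : ContDiffAt ℝ 1 (fun p : V × ℝ => RR 0 p.1) p :=
      contDiff_RR.contDiffAt.comp p (contDiffAt_const.prodMk contDiffAt_fst)
    have h5 : ContDiffAt ℝ 1 (fun p : V × ℝ => √(U 0 p.1)) p :=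
      (contDiffAt_U contDiffAt_const contDiffAt_fst h).sqrt (U_pos 0 h).ne'
    have h6 : ContDiffAt ℝ 1
        (fun p : V × ℝ => Psig (8 * √(U 0 p.1) * kp p.1 p.2) 1 (GG p.1)) p :=
      contDiffAt_Psig (fun _ => (contDiffAt_const.mul h5).mul h1) contDiffAt_const (by fun_prop)
    exact h3.smul ((h2.smul h4).add ((contDiffAt_const.sub h2).smul h6))

lemma kp_eq_zero {x : V} (hx : x ≠ 0) {σ : ℝ} (h : 4096 * q x ^ 3 ≤ 9 * σ ^ 6) : kp x σ = 0 := by
  have := q_pos hx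
  rw [kp, step_of_ge (by norm_num) (by rw [le_div_iff₀ (by positivity)]; linarith), sub_self]
lemma kp_eq_one {x : V} {σ : ℝ} (h : σ ^ 6 ≤ 256 * q x ^ 3) : kp x σ = 1 := by
  have := q_nonneg x
  rw [kp, step_of_le (by norm_num) (div_le_one_of_le₀ h (by positivity)), sub_zero]
lemma c1_zero : c1 0 = 0 := step_of_le (by norm_num) (by norm_num)
lemma c1_one : c1 1 = 1 := step_of_ge (by norm_num) (by norm_num)

lemma Mt_zero (σ : ℝ) : Mt (0, σ) = 0 := by
  rw [Mt, xi_small (by simp), zero_smul]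

lemma hasCompactSupport_Mt : HasCompactSupport Mt := by
  refine HasCompactSupport.intro (isCompact_closedBall (0 : V × ℝ) 4) fun p hp => ?_
  obtain ⟨x, σ⟩ := p
  rw [mem_closedBall_zero_iff, not_le, Prod.norm_def, lt_max_iff] at hp
  by_cases hx : x = 0
  · rw [hx, Mt_zero]
  by_cases h9 : 9 ≤ q x ^ 3
  · rw [Mt, xi_big h9, zero_smul]
  rcases hp with hp | hp
  · exfalso
    apply h9
    have : 16 ≤ q x := by
      rw [Prod.norm_def, lt_max_iff] at hp
      unfold q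
      rcases hp with hp | hp <;> nlinarith [sq_nonneg ‖x.1‖, sq_nonneg ‖x.2‖]
    calc (9 : ℝ) ≤ 16 ^ 3 := by norm_num
      _ ≤ _ := pow_le_pow_left₀ (by norm_num) this 3
  · have h6 : (4 : ℝ) ^ 6 ≤ σ ^ 6 := by
      rw [← Even.pow_abs (by decide : Even 6) σ]
      exact pow_le_pow_left₀ (by norm_num) hp.le 6
    have : kp x σ = 0 := kp_eq_zero hx (by linarith [not_le.1 h9])
    simp [Mt, this, c1_zero, Psig_zero]

/-- The rescaled point. -/
noncomputable def sc (n : ℕ) (x : V) : V := (4 : ℝ) ^ n • (Sw ^ n) x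

noncomputable def FF (p : V × ℝ) : V := ∑' n, Li n (Mt (sc n p.1, 4 ^ n * p.2))

lemma contDiff_FF : ContDiff ℝ 1 FF := by
  obtain ⟨C, hC0, -, hC⟩ := exists_bound_of_compact contDiff_Mt hasCompactSupport_Mt
  let A : ℕ → (V × ℝ →L[ℝ] V × ℝ) := fun n =>
    (4 : ℝ) ^ n • (Sw ^ n).prodMap (ContinuousLinearMap.id ℝ ℝ)
  let B : ℕ → (V →L[ℝ] V) := fun n => (1 / 64 : ℝ) ^ n • Sw ^ n
  have e : ∀ n, (fun p : V × ℝ => Li n (Mt (sc n p.1, 4 ^ n * p.2))) = B n ∘ Mt ∘ A n := by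
    intro n; funext p; rfl
  have hA : ∀ n, ‖A n‖ ≤ 4 ^ n := fun n => by
    refine ContinuousLinearMap.opNorm_le_bound _ (by positivity) fun v => ?_
    simp only [A, smul_apply, norm_smul, Real.norm_eq_abs, abs_pow, Nat.abs_ofNat]
    refine mul_le_mul_of_nonneg_left (le_of_eq ?_) (by positivity)
    change max ‖(Sw ^ n) v.1‖ ‖v.2‖ = _
    rw [norm_Swn, Prod.norm_def v]
  have hB : ∀ n, ‖B n‖ ≤ (1 / 64) ^ n := fun n => by
    simp only [B, norm_smul, Real.norm_eq_abs, abs_pow]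
    rw [abs_of_pos (by norm_num)]
    exact mul_le_of_le_one_right (by positivity) (opNorm_Swn n)
  refine contDiff_one_tsum (f := fun n (p : V × ℝ) => Li n (Mt (sc n p.1, 4 ^ n * p.2)))
    (v := fun n => C * (1 / 16) ^ n) (x₀ := 0) (fun n => ?_)
    ((summable_geometric_of_lt_one (by norm_num) (by norm_num)).mul_left _) (fun n p => ?_) ?_
  · rw [e]; exact (B n).contDiff.comp (contDiff_Mt.comp (A n).contDiff)
  · have := (B n).hasFDerivAt.comp p
      ((contDiff_Mt.differentiable one_ne_zero (A n p)).hasFDerivAt.comp p (A n).hasFDerivAt)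
    rw [e, this.fderiv]
    refine (ContinuousLinearMap.opNorm_comp_le _ _).trans ?_
    calc _ ≤ (1 / 64) ^ n * (C * 4 ^ n) := by
          refine mul_le_mul (hB n) ((ContinuousLinearMap.opNorm_comp_le _ _).trans ?_)
            (norm_nonneg _) (by positivity)
          exact mul_le_mul (hC _) (hA n) (norm_nonneg _) hC0
      _ = C * ((1 / 64) * 4) ^ n := by rw [mul_pow]; ring
      _ = _ := by norm_num
  · simp [sc, Mt_zero, Li_zero', summable_zero]

lemma FF_zero (σ : ℝ) : FF (0, σ) = 0 := by simp [FF, sc, Mt_zero, Li_zero']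

lemma q_sc (n : ℕ) (x : V) : q (sc n x) = 16 ^ n * q x := by
  rw [sc, q_smul, q_Swn, ← pow_mul, mul_comm n 2, pow_mul]; norm_num
lemma U_sc (n : ℕ) (x : V) : U 0 (sc n x) = 64 ^ n * U 0 x := by
  rw [U_zero, U_zero, q_sc, sc, nr_smul (by positivity), nr_Swn]
  have : (64 : ℝ) ^ n = 4 ^ n * 16 ^ n := by rw [← mul_pow]; norm_num
  rw [this]; ring
lemma q_cube (x : V) : q x ^ 3 = U 0 x ^ 2 := by rw [U_sq, mm_zero]; ring
lemma kp_sc (n : ℕ) (x : V) (σ : ℝ) : kp (sc n x) (4 ^ n * σ) = kp x σ := by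
  unfold kp
  have : (4 ^ n * σ) ^ 6 / (256 * q (sc n x) ^ 3) = σ ^ 6 / (256 * q x ^ 3) := by
    rw [q_sc, mul_pow, mul_pow, ← pow_mul, ← pow_mul, mul_comm n, mul_comm n, pow_mul, pow_mul,
      mul_left_comm]
    norm_num
    rw [mul_div_mul_left _ _ (by positivity)]
  rw [this]
lemma Li_RR_sc (n : ℕ) (x : V) : Li n (RR 0 (sc n x)) = RR 0 x := by
  have : (64 : ℝ) ^ n = 4 ^ n * 16 ^ n := by rw [← mul_pow]; norm_num
  rw [RR, RR, mm_zero, mm_zero, q_sc, Li, sc, map_smul, map_smul, map_smul, Swn_Sw, Swn_Swn,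
    smul_smul, smul_smul, one_div, inv_pow, this]
  congr 1
  field_simp

noncomputable def AA (x : V) (σ : ℝ) (n : ℕ) : V :=
  Li n (Psig (8 * √(64 ^ n * U 0 x) * kp x σ) 1 (GG (sc n x)))

lemma FF_eval {x : V} {σ : ℝ} {j : ℕ} (h1 : 1 / 32 ≤ 64 ^ j * U 0 x) (h2 : 64 ^ j * U 0 x ≤ 2) :
    FF (x, σ) = c1 (kp x σ) • RR 0 x + (1 - c1 (kp x σ)) •
      (step 4 9 (4096 * (64 ^ j * U 0 x) ^ 2) • AA x σ j +
        (1 - step 4 9 (4096 * (64 ^ j * U 0 x) ^ 2)) • AA x σ (j + 1)) := by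
  have hu := U_nonneg 0 x
  have term : ∀ n, Li n (Mt (sc n x, 4 ^ n * σ)) = xi ((64 ^ n * U 0 x) ^ 2) •
      (c1 (kp x σ) • RR 0 x + (1 - c1 (kp x σ)) • AA x σ n) := by
    intro n
    rw [Mt, Li_smul, Li_add, Li_smul, Li_smul, kp_sc, Li_RR_sc, q_cube, U_sc, AA]
  have e1 : xi ((64 ^ j * U 0 x) ^ 2) = step 4 9 (4096 * (64 ^ j * U 0 x) ^ 2) := by
    rw [xi, step_of_le (t := (64 ^ j * U 0 x) ^ 2) (by norm_num) (by nlinarith), sub_zero]
  have e2 : xi ((64 ^ (j + 1) * U 0 x) ^ 2) = 1 - step 4 9 (4096 * (64 ^ j * U 0 x) ^ 2) := by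
    have : (64 ^ (j + 1) * U 0 x) ^ 2 = 4096 * (64 ^ j * U 0 x) ^ 2 := by ring
    rw [this, xi, step_of_ge (by norm_num) (by nlinarith)]
  unfold FF
  simp only [term]
  rw [tsum_eq_sum (s := {j, j + 1}), Finset.sum_pair (by omega), e1, e2]
  · module
  · intro m hm
    simp only [Finset.mem_insert, Finset.mem_singleton, not_or] at hm
    rcases lt_or_gt_of_ne hm.1 with h | h
    · have : (64 : ℝ) ^ (m + 1) ≤ 64 ^ j := pow_le_pow_right₀ (by norm_num) h
      have h3 := mul_le_mul_of_nonneg_right this hu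
      rw [pow_succ] at h3
      have h4 : 0 ≤ 64 ^ m * U 0 x := by positivity
      rw [xi_small (by nlinarith), zero_smul]
    · have : (64 : ℝ) ^ (j + 2) ≤ 64 ^ m := pow_le_pow_right₀ (by norm_num) (by omega)
      have h3 := mul_le_mul_of_nonneg_right this hu
      rw [pow_add] at h3
      rw [xi_big (by nlinarith), zero_smul]

lemma exists_band {x : V} (hx : x ≠ 0) (h : U 0 x ≤ 2) :
    ∃ j : ℕ, 1 / 32 ≤ 64 ^ j * U 0 x ∧ 64 ^ j * U 0 x ≤ 2 := by
  obtain ⟨j, h1, h2⟩ := exists_level (a := 1 / 32) (U_pos 0 hx) (by linarith)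
  exact ⟨j, h1, by linarith⟩

lemma FF_eq_RR {x : V} {σ : ℝ} (h : U 0 x ≤ 2) (hk : kp x σ = 1) : FF (x, σ) = RR 0 x := by
  by_cases hx : x = 0
  · rw [hx, FF_zero, RR_zero]
  obtain ⟨j, h1, h2⟩ := exists_band hx h
  rw [FF_eval h1 h2, hk, c1_one]
  simp

lemma FF_eq_zero {x : V} {σ : ℝ} (h : U 0 x ≤ 2) (hk : kp x σ = 0) : FF (x, σ) = 0 := by
  by_cases hx : x = 0
  · rw [hx, FF_zero]
  obtain ⟨j, h1, h2⟩ := exists_band hx h
  rw [FF_eval h1 h2, hk, c1_zero]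
  simp [AA, hk, Psig_zero, Li_zero']

end Crest.Agent.R123.C
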