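import Crest.Agent.R123.Map
import Crest.Agent.R123.Defs

/-! Row 123: the map on `S² × S² × S¹`. -/

set_option autoImplicit false
open scoped Topology
open Real

namespace Crest.Agent.R123.C

/-- Inverse stereographic projection (ambient form). -/
noncomputable def eeA (x : ℂ) : ℂ × ℝ := ((2 / (‖x‖ ^ 2 + 1)) • x, (‖x‖ ^ 2 - 1) / (‖x‖ ^ 2 + 1))

lemma contDiff_eeA : ContDiff ℝ 1 eeA := by
  have h1 : ContDiff ℝ 1 fun x : ℂ => 2 / (‖x‖ ^ 2 + 1) :=
    ContDiff.div contDiff_const (by fun_prop) fun x => by positivity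
  have h2 : ContDiff ℝ 1 fun x : ℂ => (‖x‖ ^ 2 - 1) / (‖x‖ ^ 2 + 1) :=
    ContDiff.div (by fun_prop) (by fun_prop) fun x => by positivity
  exact (h1.smul contDiff_id).prodMk h2

noncomputable def ee (x : ℂ) : S2 := ⟨eeA x, by
  have : 0 < ‖x‖ ^ 2 + 1 := by positivity
  simp only [eeA, norm_smul, Real.norm_eq_abs, mul_pow, sq_abs]
  field_simp
  ring⟩

lemma continuous_ee : Continuous ee := contDiff_eeA.continuous.subtype_mk _

/-- Stereographic projection. -/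
noncomputable def ch (p : ℂ × ℝ) : ℂ := (1 / (1 - p.2)) • p.1

lemma contDiffAt_ch {p : ℂ × ℝ} (h : p.2 ≠ 1) : ContDiffAt ℝ 1 ch p := by
  have h1 : ContDiffAt ℝ 1 (fun p : ℂ × ℝ => 1 / (1 - p.2)) p :=
    ContDiffAt.div contDiffAt_const (by fun_prop) (sub_ne_zero.2 h.symm)
  exact h1.smul contDiffAt_fst

lemma ee_ne (x : ℂ) : (ee x).1.2 ≠ 1 := by
  have : 0 < ‖x‖ ^ 2 + 1 := by positivity
  simp only [ee, eeA]
  rw [Ne, div_eq_one_iff_eq this.ne']
  linarith

lemma ch_ee (x : ℂ) : ch (ee x).1 = x := by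
  have : 0 < ‖x‖ ^ 2 + 1 := by positivity
  simp only [ee, eeA, ch, smul_smul]
  have e : 1 / (1 - (‖x‖ ^ 2 - 1) / (‖x‖ ^ 2 + 1)) * (2 / (‖x‖ ^ 2 + 1)) = 1 := by
    field_simp
    ring
  rw [e, one_smul]

lemma S2.le_one (w : S2) : w.1.2 ≤ 1 := by nlinarith [w.2, sq_nonneg ‖w.1.1‖]
lemma S2.neg_one_le (w : S2) : -1 ≤ w.1.2 := by nlinarith [w.2, sq_nonneg ‖w.1.1‖]

lemma norm_ch_sq {w : S2} (h : w.1.2 ≠ 1) : ‖ch w.1‖ ^ 2 = (1 + w.1.2) / (1 - w.1.2) := by
  have h1 : 1 - w.1.2 ≠ 0 := sub_ne_zero.2 h.symm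
  have h2 : ‖w.1.1‖ ^ 2 = (1 + w.1.2) * (1 - w.1.2) := by linarith [w.2]
  rw [ch, norm_smul, mul_pow, Real.norm_eq_abs, sq_abs, h2]
  field_simp

lemma ee_ch {w : S2} (h : w.1.2 ≠ 1) : ee (ch w.1) = w := by
  have h1 : 1 - w.1.2 ≠ 0 := sub_ne_zero.2 h.symm
  apply Subtype.ext
  simp only [ee, eeA]
  rw [norm_ch_sq h, ch, smul_smul]
  ext
  · have e : 2 / ((1 + w.1.2) / (1 - w.1.2) + 1) * (1 / (1 - w.1.2)) = 1 := by
      field_simp
      ring
    rw [e, one_smul]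
  · field_simp
    ring

def NP : S2 := ⟨(0, 1), by simp⟩

lemma eq_NP {w : S2} (h : w.1.2 = 1) : w = NP := by
  have h2 := w.2
  rw [h] at h2
  have : ‖w.1.1‖ ^ 2 = 0 := by linarith
  apply Subtype.ext
  ext
  · simpa [NP] using this
  · exact h

lemma big_ch {w : S2} (h : w.1.2 ≠ 1) (h' : 999 / 1000 < w.1.2) : 400 ≤ ‖ch w.1‖ ^ 2 := by
  have := S2.le_one w
  rw [norm_ch_sq h, le_div_iff₀ (sub_pos.2 (lt_of_le_of_ne this h))]
  linarith

/-- The map `w ↦ κ w²` (ambient form). -/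
noncomputable def sqA (κ : ℝ) (p : ℂ × ℝ) : ℂ × ℝ :=
  ((2 * κ / (κ ^ 2 * (1 + p.2) ^ 2 + (1 - p.2) ^ 2)) • p.1 ^ 2,
    (κ ^ 2 * (1 + p.2) ^ 2 - (1 - p.2) ^ 2) / (κ ^ 2 * (1 + p.2) ^ 2 + (1 - p.2) ^ 2))

lemma sqA_den {κ : ℝ} (hκ : κ ≠ 0) (c : ℝ) : 0 < κ ^ 2 * (1 + c) ^ 2 + (1 - c) ^ 2 := by
  by_cases h : 1 - c = 0
  · have : 1 + c ≠ 0 := by intro h'; linarith
    positivity
  · positivity

lemma contDiffAt_sqA {p : ℝ × ℂ × ℝ} (hκ : p.1 ≠ 0) :
    ContDiffAt ℝ 1 (fun p : ℝ × ℂ × ℝ => sqA p.1 p.2) p := by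
  have h1 : ContDiffAt ℝ 1 (fun p : ℝ × ℂ × ℝ =>
      2 * p.1 / (p.1 ^ 2 * (1 + p.2.2) ^ 2 + (1 - p.2.2) ^ 2)) p :=
    ContDiffAt.div (by fun_prop) (by fun_prop) (sqA_den hκ _).ne'
  have h2 : ContDiffAt ℝ 1 (fun p : ℝ × ℂ × ℝ => (p.1 ^ 2 * (1 + p.2.2) ^ 2 - (1 - p.2.2) ^ 2) /
      (p.1 ^ 2 * (1 + p.2.2) ^ 2 + (1 - p.2.2) ^ 2)) p :=
    ContDiffAt.div (by fun_prop) (by fun_prop) (sqA_den hκ _).ne'
  have h3 : ContDiffAt ℝ 1 (fun p : ℝ × ℂ × ℝ => p.2.1 ^ 2) p := by fun_prop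
  exact (h1.smul h3).prodMk h2

lemma sqA_NP {κ : ℝ} (hκ : κ ≠ 0) : sqA κ NP.1 = NP.1 := by
  simp only [sqA, NP]
  ext
  · simp
  · field_simp; ring

lemma eeA_sq {κ : ℝ} (hκ : κ ≠ 0) {w : S2} (h : w.1.2 ≠ 1) : eeA (κ • ch w.1 ^ 2) = sqA κ w.1 := by
  have h1 : 1 - w.1.2 ≠ 0 := sub_ne_zero.2 h.symm
  have h2 := sqA_den hκ w.1.2
  have e : ‖κ • ch w.1 ^ 2‖ ^ 2 = κ ^ 2 * ((1 + w.1.2) / (1 - w.1.2)) ^ 2 := by
    rw [norm_smul, norm_pow, norm_ch_sq h, mul_pow, Real.norm_eq_abs, sq_abs]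
  simp only [eeA, sqA]
  rw [e, ch, smul_pow, smul_smul, smul_smul]
  ext
  · simp only
    congr 1
    field_simp
  · simp only
    field_simp

lemma sqA_one (w : S2) : sqA 1 w.1 = (sq w).1 := by
  have : (0 : ℝ) < 1 + w.1.2 ^ 2 := by positivity
  have e : (1 : ℝ) ^ 2 * (1 + w.1.2) ^ 2 + (1 - w.1.2) ^ 2 = 2 * (1 + w.1.2 ^ 2) := by ring
  simp only [sqA, sq, ContinuousMap.coe_mk, e]
  ext
  · have h' : ((1 + w.1.2 ^ 2 : ℝ) : ℂ) ≠ 0 := by exact_mod_cast this.ne'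
    simp only [Complex.real_smul]
    rw [Complex.ofReal_div, Complex.ofReal_mul, Complex.ofReal_mul]
    field_simp
    norm_num
  · simp only
    field_simp
    ring

noncomputable def ch2 (p : ℂ × ℝ) : ℂ := if p.2 = 1 then 20 else ch p

/-- Height function on the circle, with values in `(0, 1]`. -/
noncomputable def hgt (z : ℂ) : ℝ := Complex.arg (-z) / (2 * π) + 1 / 2
noncomputable def ex (t : ℝ) : Circle := Circle.exp (2 * π * t)
noncomputable def exA (t : ℝ) : ℂ := Complex.exp (((2 * π * t : ℝ) : ℂ) * Complex.I)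

lemma coe_ex (t : ℝ) : (ex t : ℂ) = exA t := rfl
lemma contDiff_exA : ContDiff ℝ 1 exA := by
  unfold exA
  refine (Complex.contDiff_exp (𝕜 := ℝ)).comp (ContDiff.mul ?_ contDiff_const)
  exact Complex.ofRealCLM.contDiff.comp (f := fun t : ℝ => 2 * π * t) (by fun_prop)
lemma continuous_ex : Continuous ex := Circle.exp.continuous.comp (by fun_prop)
lemma ex_zero : ex 0 = 1 := by simp [ex]
lemma ex_add_one (t : ℝ) : ex (t + 1) = ex t := by
  rw [ex, mul_add, mul_one, Circle.exp_add_two_pi, ex]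
lemma ex_one_add (t : ℝ) : ex (1 + t) = ex t := by rw [add_comm, ex_add_one]
lemma ex_one : ex 1 = 1 := by rw [← zero_add (1 : ℝ), ex_add_one, ex_zero]
lemma hgt_pos (z : ℂ) : 0 < hgt z := by
  have := Complex.neg_pi_lt_arg (-z)
  have h : -(1 / 2 : ℝ) < Complex.arg (-z) / (2 * π) := by
    rw [lt_div_iff₀ (by positivity)]; linarith
  unfold hgt; linarith
lemma hgt_le_one (z : ℂ) : hgt z ≤ 1 := by
  have := Complex.arg_le_pi (-z)
  have h : Complex.arg (-z) / (2 * π) ≤ 1 / 2 := by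
    rw [div_le_iff₀ (by positivity)]; linarith
  unfold hgt; linarith
lemma ex_hgt (z : Circle) : ex (hgt z) = z := by
  apply Circle.ext
  have h := Complex.norm_mul_exp_arg_mul_I (-(z : ℂ))
  have e : 2 * π * hgt z = Complex.arg (-(z : ℂ)) + π := by unfold hgt; field_simp
  rw [coe_ex, exA, e, Complex.ofReal_add, add_mul, Complex.exp_add, Complex.exp_pi_mul_I]
  simp only [norm_neg, Circle.norm_coe, Complex.ofReal_one, one_mul] at h
  rw [h]; ring
lemma hgt_ex {s : ℝ} (h0 : 0 < s) (h1 : s ≤ 1) : hgt (ex s) = s := by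
  have e : -(ex s : ℂ) = Complex.exp (((2 * π * s - π : ℝ) : ℂ) * Complex.I) := by
    rw [coe_ex, exA, Complex.ofReal_sub, sub_mul, Complex.exp_sub, Complex.exp_pi_mul_I]
    ring
  rw [hgt, e, Complex.exp_mul_I, Complex.arg_cos_add_sin_mul_I
    ⟨by nlinarith [pi_pos], by nlinarith [pi_pos]⟩]
  field_simp
  ring

/-- The chart. -/
noncomputable def io (x : V) (s : ℝ) : M5 := (ee x.1, ee x.2, ex s)

noncomputable def FM (w y : S2) (s : ℝ) : M5 :=
  if w.1.2 = 1 then (NP, ee 0, ex (sig' s))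
  else io (XX (ch w.1, ch2 y.1) s) (th (ch w.1, ch2 y.1) s)

/-- The counterexample. -/
noncomputable def ff (m : M5) : M5 := FM m.1 m.2.1 (hgt m.2.2)

lemma FM_ends (w y : S2) {s : ℝ} (h : s ≤ 3 / 20 ∨ 17 / 20 ≤ s) : FM w y s = FM w y 0 := by
  unfold FM io
  rcases h with h | h
  · rw [(ends_low _ h).1, (ends_low _ h).2, sig'_low (by linarith), sig'_low (by norm_num)]
  · rw [(ends_high _ h).1, (ends_high _ h).2, sig'_high h, sig'_low (by norm_num), ex_add_one,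
      ex_one, ex_zero]

lemma ff_ex (w y : S2) {s : ℝ} (h0 : 0 ≤ s) (h1 : s ≤ 1) : ff (w, y, ex s) = FM w y s := by
  rcases h0.lt_or_eq with h | h
  · rw [ff, hgt_ex h h1]
  · rw [← h, ex_zero, ← ex_one, ff, hgt_ex one_pos le_rfl, FM_ends _ _ (Or.inr (by norm_num))]

lemma ff_io (x : V) {s : ℝ} (h0 : 0 ≤ s) (h1 : s ≤ 1) : ff (io x s) = io (XX x s) (th x s) := by
  rw [io, ff_ex _ _ h0 h1, FM, if_neg (ee_ne _), ch2, if_neg (ee_ne _), ch_ee, ch_ee]

lemma exists_height (z : Circle) : ∃ h : ℂ → ℝ, ContDiffAt ℝ 1 h z ∧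
    ∀ᶠ (z' : Circle) in 𝓝 z, ∀ w y, FM w y (hgt z') = FM w y (h z') := by
  by_cases hz : z = 1
  · refine ⟨fun _ => 0, contDiffAt_const, ?_⟩
    have hc : IsClosed (ex '' Set.Icc (3 / 20) (17 / 20)) :=
      (isCompact_Icc.image continuous_ex).isClosed
    have hn : z ∈ (ex '' Set.Icc (3 / 20) (17 / 20))ᶜ := by
      rintro ⟨s, hs, e⟩
      have := hgt_ex (s := s) (by linarith [hs.1]) (by linarith [hs.2])
      rw [e, hz, ← ex_one, hgt_ex one_pos le_rfl] at this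
      linarith [hs.2]
    filter_upwards [hc.isOpen_compl.mem_nhds hn] with z' hz' w y
    refine FM_ends w y ?_
    by_contra h
    rw [not_or, not_le, not_le] at h
    exact hz' ⟨hgt z', ⟨h.1.le, h.2.le⟩, ex_hgt z'⟩
  · refine ⟨hgt, ?_, Filter.Eventually.of_forall fun _ _ _ => rfl⟩
    have hs : -(z : ℂ) ∈ Complex.slitPlane := by
      rw [Complex.mem_slitPlane_iff]
      by_contra h
      rw [not_or, not_lt, not_not] at h
      simp only [Complex.neg_re, Complex.neg_im, neg_eq_zero, Left.neg_nonpos_iff] at h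
      apply hz
      apply Circle.ext
      have h1 : Complex.normSq (z : ℂ) = 1 := Circle.normSq_coe z
      rw [Complex.normSq_apply, h.2] at h1
      apply Complex.ext
      · simp only [Circle.coe_one, Complex.one_re]; nlinarith [h.1]
      · simpa using h.2
    have h1 : ContDiffAt ℝ 1 (fun u : ℂ => Complex.log (-u)) z :=
      ((Complex.contDiffAt_log hs).restrict_scalars ℝ).comp (z : ℂ) contDiffAt_id.neg
    have h2 : ContDiffAt ℝ 1 (fun u : ℂ => (Complex.log (-u)).im) z :=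
      Complex.imCLM.contDiff.contDiffAt.comp (z : ℂ) h1
    simp only [Complex.log_im] at h2
    unfold hgt
    fun_prop

lemma far_of_q {x : V} (h : 400 ≤ q x) (s : ℝ) : psi x s = 1 :=
  psi_of_nr s (by nlinarith [nr_sq x, nr_nonneg x])

lemma far_snd (a : ℂ) {b : ℂ} (h : 400 ≤ ‖b‖ ^ 2) (s : ℝ) :
    XX (a, b) s = XX (a, 20) s ∧ th (a, b) s = th (a, 20) s := by
  have h1 : 400 ≤ q (a, b) := by simp only [q]; nlinarith [sq_nonneg ‖a‖]
  have h2 : 400 ≤ q (a, 20) := by simp only [q, Complex.norm_ofNat]; nlinarith [sq_nonneg ‖a‖]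
  rw [XX_far (far_of_q h1 s), XX_far (far_of_q h2 s), th_far (far_of_q h1 s),
    th_far (far_of_q h2 s), GG_far h1, GG_far h2]
  exact ⟨rfl, rfl⟩

lemma far_fst {a : ℂ} (b : ℂ) (h : 400 ≤ ‖a‖ ^ 2) (s : ℝ) :
    XX (a, b) s = ((1024 : ℝ) • a ^ 2, 0) ∧ th (a, b) s = 1 + sig' s := by
  have h1 : 400 ≤ q (a, b) := by simp only [q]; nlinarith [sq_nonneg ‖b‖]
  rw [XX_far (far_of_q h1 s), th_far (far_of_q h1 s), GG_far h1,
    Psig_big (by rw [norm_pow]; linarith)]
  simp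

lemma emb_FM_north {w : S2} (h : 999 / 1000 < w.1.2) (y : S2) (s : ℝ) :
    emb (FM w y s) = (sqA 1024 w.1, eeA 0, exA (sig' s)) := by
  unfold FM
  split_ifs with h1
  · rw [eq_NP h1, sqA_NP (by norm_num)]; rfl
  · obtain ⟨e1, e2⟩ := far_fst (ch2 y.1) (big_ch h1 h) s
    rw [e1, e2, io, ex_one_add, ← eeA_sq (by norm_num) h1]; rfl

lemma continuous_emb : Continuous emb := by unfold emb; fun_prop

lemma local_ambient (m : M5) : ∃ g : E8 → E8, ContDiffAt ℝ 1 g (emb m) ∧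
    ∀ᶠ m' in 𝓝 m, emb (ff m') = g (emb m') := by
  obtain ⟨h, hh, hev⟩ := exists_height m.2.2
  have hh' : ContDiffAt ℝ 1 (fun p : E8 => h p.2.2) (emb m) :=
    ContDiffAt.comp (g := h) (f := fun p : E8 => p.2.2) (emb m) hh (by fun_prop)
  have hev' : ∀ᶠ m' in 𝓝 m, ff m' = FM m'.1 m'.2.1 (h m'.2.2) := by
    have : ContinuousAt (fun m' : M5 => m'.2.2) m := by fun_prop
    filter_upwards [this.eventually hev] with m' hm' using hm' _ _
  have c1 : ContinuousAt (fun m' : M5 => m'.1.1.2) m := by fun_prop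
  have c2 : ContinuousAt (fun m' : M5 => m'.2.1.1.2) m := by fun_prop
  by_cases hw : m.1.1.2 = 1
  · refine ⟨fun p => (sqA 1024 p.1, eeA 0, exA (sig' (h p.2.2))), ?_, ?_⟩
    · refine ContDiffAt.prodMk ?_ (contDiffAt_const.prodMk ?_)
      · exact (contDiffAt_sqA (p := (1024, (emb m).1)) (by norm_num)).comp (emb m)
          (contDiffAt_const.prodMk contDiffAt_fst)
      · exact contDiff_exA.contDiffAt.comp _ ((contDiffAt_sig' _).comp _ hh')
    · filter_upwards [hev', c1.eventually (lt_mem_nhds (show 999 / 1000 < m.1.1.2 by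
        rw [hw]; norm_num))] with m' e1 e2
      rw [e1, emb_FM_north e2]; rfl
  · obtain ⟨b, hb, hbe⟩ : ∃ b : ℂ × ℝ → ℂ, ContDiffAt ℝ 1 b m.2.1.1 ∧ ∀ᶠ m' in 𝓝 m, ∀ a s,
        XX (a, ch2 m'.2.1.1) s = XX (a, b m'.2.1.1) s ∧
          th (a, ch2 m'.2.1.1) s = th (a, b m'.2.1.1) s := by
      by_cases hy : m.2.1.1.2 = 1
      · refine ⟨fun _ => 20, contDiffAt_const, ?_⟩
        filter_upwards [c2.eventually (lt_mem_nhds (show 999 / 1000 < m.2.1.1.2 by
          rw [hy]; norm_num))] with m' e a s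
        unfold ch2
        split_ifs with h1
        · exact ⟨rfl, rfl⟩
        · exact far_snd a (big_ch h1 e) s
      · refine ⟨ch, contDiffAt_ch hy, ?_⟩
        filter_upwards [c2.eventually_ne hy] with m' e a s
        rw [ch2, if_neg e]
        exact ⟨rfl, rfl⟩
    have hP : ContDiffAt ℝ 1 (fun p : E8 => (((ch p.1, b p.2.1), h p.2.2) : V × ℝ)) (emb m) := by
      refine ContDiffAt.prodMk (ContDiffAt.prodMk ?_ ?_) hh'
      · exact ContDiffAt.comp (g := ch) (f := fun p : E8 => p.1) (emb m) (contDiffAt_ch hw)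
          contDiffAt_fst
      · exact ContDiffAt.comp (g := b) (f := fun p : E8 => p.2.1) (emb m) hb (by fun_prop)
    have hX := contDiff_XX.contDiffAt.comp (emb m) hP
    have hT := contDiff_th.contDiffAt.comp (emb m) hP
    refine ⟨fun p => (eeA (XX (ch p.1, b p.2.1) (h p.2.2)).1, eeA (XX (ch p.1, b p.2.1) (h p.2.2)).2,
      exA (th (ch p.1, b p.2.1) (h p.2.2))), ?_, ?_⟩
    · exact (contDiff_eeA.contDiffAt.comp _ hX.fst).prodMk
        ((contDiff_eeA.contDiffAt.comp _ hX.snd).prodMk (contDiff_exA.contDiffAt.comp _ hT))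
    · filter_upwards [hev', hbe, c1.eventually_ne hw] with m' e1 e2 e3
      rw [e1, FM, if_neg e3, (e2 _ _).1, (e2 _ _).2]; rfl

lemma isInducing_emb : Topology.IsInducing emb :=
  Topology.IsInducing.subtypeVal.prodMap
    (Topology.IsInducing.subtypeVal.prodMap Topology.IsInducing.subtypeVal)

lemma continuous_ff : Continuous ff := by
  rw [continuous_iff_continuousAt]
  intro m
  obtain ⟨g, hg, he⟩ := local_ambient m
  rw [isInducing_emb.continuousAt_iff]
  exact (hg.continuousAt.comp continuous_emb.continuousAt).congr (he.mono fun _ h => h.symm)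

noncomputable def ffC : C(M5, M5) := ⟨ff, continuous_ff⟩
noncomputable def i0 : C(S2, M5) := ⟨fun w => (w, ee 20, 1), by fun_prop⟩

noncomputable def HH (p : unitInterval × S2) : M5 :=
  if p.2.1.2 = 1 then (NP, ee (((p.1 : ℝ) : ℂ) * 20), 1)
  else (ee ((1 - (p.1 : ℝ)) • (XX (ch p.2.1, 20) 0).1 + (p.1 : ℝ) • ch p.2.1 ^ 2),
    ee ((1 - (p.1 : ℝ)) • (XX (ch p.2.1, 20) 0).2 + ((p.1 : ℝ) : ℂ) * 20), 1)

lemma continuous_HH : Continuous HH := by
  rw [continuous_iff_continuousAt]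
  intro p
  have c1 : ContinuousAt (fun p : unitInterval × S2 => p.2.1.2) p := by fun_prop
  have hκ : ∀ t : unitInterval, (1 - (t : ℝ)) * 1024 + t ≠ 0 := fun t => by
    nlinarith [t.2.1, t.2.2]
  by_cases hw : p.2.1.2 = 1
  · rw [isInducing_emb.continuousAt_iff]
    have : ContinuousAt (fun p : unitInterval × S2 =>
        ((sqA ((1 - (p.1 : ℝ)) * 1024 + p.1) p.2.1, eeA (((p.1 : ℝ) : ℂ) * 20), 1) : E8)) p := by
      refine ContinuousAt.prodMk ?_ (ContinuousAt.prodMk ?_ continuousAt_const)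
      · exact ContinuousAt.comp (g := fun p : ℝ × ℂ × ℝ => sqA p.1 p.2)
          (f := fun p : unitInterval × S2 => ((1 - (p.1 : ℝ)) * 1024 + p.1, p.2.1))
          (contDiffAt_sqA (hκ p.1)).continuousAt (by fun_prop)
      · exact contDiff_eeA.continuous.continuousAt.comp (by fun_prop)
    refine this.congr ?_
    filter_upwards [c1.eventually (lt_mem_nhds (show 999 / 1000 < p.2.1.2 by
      rw [hw]; norm_num))] with p' e
    simp only [Function.comp, HH]
    split_ifs with h1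
    · rw [eq_NP h1, sqA_NP (hκ _)]; rfl
    · rw [(far_fst 20 (big_ch h1 e) 0).1, ← eeA_sq (hκ _) h1, add_smul, mul_smul]
      simp [emb, ee]
  · have h1 : ContinuousAt (fun p : unitInterval × S2 => ch p.2.1) p :=
      ContinuousAt.comp (g := ch) (f := fun p : unitInterval × S2 => p.2.1)
        (contDiffAt_ch hw).continuousAt (by fun_prop)
    have h2 : ContinuousAt (fun p : unitInterval × S2 => XX (ch p.2.1, 20) 0) p :=
      contDiff_XX.continuous.continuousAt.comp (f := fun p : unitInterval × S2 =>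
        (((ch p.2.1, 20), 0) : V × ℝ)) (by fun_prop)
    have h3 : ContinuousAt (fun p : unitInterval × S2 => (p.1 : ℝ)) p := by fun_prop
    have : ContinuousAt (fun p : unitInterval × S2 =>
        ((ee ((1 - (p.1 : ℝ)) • (XX (ch p.2.1, 20) 0).1 + (p.1 : ℝ) • ch p.2.1 ^ 2),
        ee ((1 - (p.1 : ℝ)) • (XX (ch p.2.1, 20) 0).2 + ((p.1 : ℝ) : ℂ) * 20), 1) : M5)) p := by
      refine ContinuousAt.prodMk (continuous_ee.continuousAt.comp ?_)
        (ContinuousAt.prodMk (continuous_ee.continuousAt.comp ?_) continuousAt_const)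
      · exact ((continuousAt_const.sub h3).smul h2.fst).add (h3.smul (h1.pow 2))
      · exact ((continuousAt_const.sub h3).smul h2.snd).add
          ((Complex.continuous_ofReal.continuousAt.comp h3).mul continuousAt_const)
    refine this.congr ?_
    filter_upwards [c1.eventually_ne hw] with p' e
    rw [HH, if_neg e]

lemma homotopic_ff : (ffC.comp i0).Homotopic (i0.comp sq) := by
  refine ⟨⟨⟨HH, continuous_HH⟩, fun w => ?_, fun w => ?_⟩⟩
  · change HH (0, w) = ff (w, ee 20, 1)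
    rw [← ex_zero, ff_ex _ _ le_rfl zero_le_one, HH, FM, ch2, if_neg (ee_ne _), ch_ee,
      sig'_low (by norm_num), ex_zero]
    split_ifs with h
    · simp
    · have h2 : 400 ≤ q (ch w.1, 20) := by
        simp only [q, Complex.norm_ofNat]; nlinarith [sq_nonneg ‖ch w.1‖]
      rw [io, th_far (far_of_q h2 0), ex_one_add, sig'_low (by norm_num), ex_zero]
      simp
  · change HH (1, w) = (sq w, ee 20, 1)
    rw [HH]
    split_ifs with h
    · have : sq w = NP := by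
        apply Subtype.ext
        rw [← sqA_one, eq_NP (w := w) h, sqA_NP one_ne_zero]
      simp [this]
    · have : sq w = ee (ch w.1 ^ 2) := by
        apply Subtype.ext
        rw [← sqA_one, ← eeA_sq one_ne_zero h, one_smul]; rfl
      simp [this]

end Crest.Agent.R123.C
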