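import Mathlib

/-! Row 123: smooth cut-off functions and two calculus lemmas. -/

set_option autoImplicit false
open scoped Topology
open Real

namespace Crest.Agent.R123.C

/-- Smooth step from `0` (on `t ≤ a`) to `1` (on `b ≤ t`). -/
noncomputable def step (a b t : ℝ) : ℝ := smoothTransition ((t - a) / (b - a))

lemma step_nonneg (a b t : ℝ) : 0 ≤ step a b t := smoothTransition.nonneg _
lemma step_le_one (a b t : ℝ) : step a b t ≤ 1 := smoothTransition.le_one _

lemma step_of_le {a b t : ℝ} (hab : a < b) (h : t ≤ a) : step a b t = 0 :=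
  smoothTransition.zero_of_nonpos (div_nonpos_of_nonpos_of_nonneg (by linarith) (by linarith))

lemma step_of_ge {a b t : ℝ} (hab : a < b) (h : b ≤ t) : step a b t = 1 :=
  smoothTransition.one_of_one_le (by rw [le_div_iff₀ (by linarith)]; linarith)

lemma lt_of_step_ne_zero {a b t : ℝ} (hab : a < b) (h : step a b t ≠ 0) : a < t := by
  by_contra h'
  exact h (step_of_le hab (not_lt.1 h'))

lemma lt_of_step_ne_one {a b t : ℝ} (hab : a < b) (h : step a b t ≠ 1) : t < b := by
  by_contra h'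
  exact h (step_of_ge hab (not_lt.1 h'))

@[fun_prop]
lemma contDiff_step (a b : ℝ) : ContDiff ℝ 1 (step a b) := by
  unfold step
  exact (smoothTransition.contDiff (n := 1)).comp (by fun_prop)

@[fun_prop]
lemma contDiffAt_step (a b t : ℝ) : ContDiffAt ℝ 1 (step a b) t := (contDiff_step a b).contDiffAt

/-- Smooth clamp of `ℝ` onto `[0,1]`, the identity on `[1/10, 9/10]`. -/
noncomputable def cl (t : ℝ) : ℝ :=
  t * step 0 (1 / 10) t * step 0 (1 / 10) (1 - t) + (1 - step 0 (1 / 10) (1 - t))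

@[fun_prop]
lemma contDiff_cl : ContDiff ℝ 1 cl := by
  unfold cl
  fun_prop

@[fun_prop]
lemma contDiffAt_cl (t : ℝ) : ContDiffAt ℝ 1 cl t := contDiff_cl.contDiffAt

lemma cl_of_nonpos {t : ℝ} (h : t ≤ 0) : cl t = 0 := by
  unfold cl
  rw [step_of_le (by norm_num) h, step_of_ge (t := 1 - t) (by norm_num) (by linarith)]
  ring

lemma cl_of_one_le {t : ℝ} (h : 1 ≤ t) : cl t = 1 := by
  unfold cl
  rw [step_of_le (t := 1 - t) (by norm_num) (by linarith)]
  ring

lemma cl_le_self {t : ℝ} (h0 : 0 ≤ t) (h : t ≤ 9 / 10) : cl t ≤ t := by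
  unfold cl
  rw [step_of_ge (t := 1 - t) (by norm_num) (by linarith)]
  nlinarith [step_le_one 0 (1 / 10) t]

lemma self_le_cl {t : ℝ} (h0 : 1 / 10 ≤ t) (h : t ≤ 1) : t ≤ cl t := by
  unfold cl
  rw [step_of_ge (t := t) (by norm_num) (by linarith)]
  nlinarith [step_le_one 0 (1 / 10) (1 - t)]

lemma cl_nonneg (t : ℝ) : 0 ≤ cl t := by
  rcases le_total t 0 with h | h
  · rw [cl_of_nonpos h]
  · unfold cl
    have := step_le_one 0 (1 / 10) (1 - t)
    have := mul_nonneg (mul_nonneg h (step_nonneg 0 (1 / 10) t)) (step_nonneg 0 (1 / 10) (1 - t))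
    linarith

lemma cl_le_one (t : ℝ) : cl t ≤ 1 := by
  rcases le_total 1 t with h | h
  · rw [cl_of_one_le h]
  · unfold cl
    have h1 : t * step 0 (1 / 10) t ≤ 1 := by
      rcases le_total t 0 with h0 | h0
      · nlinarith [step_nonneg 0 (1 / 10) t]
      · nlinarith [step_le_one 0 (1 / 10) t]
    nlinarith [step_nonneg 0 (1 / 10) (1 - t)]

lemma cl_eq_self {t : ℝ} (h0 : 1 / 10 ≤ t) (h : t ≤ 9 / 10) : cl t = t :=
  le_antisymm (cl_le_self (by linarith) h) (self_le_cl h0 (by linarith))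

/-- The expanding interval map with repelling fixed point `r`. -/
lemma cl_expand {r s : ℝ} (hr0 : 1 / 10 ≤ r) (hr1 : r ≤ 9 / 10) :
    cl (r + 4 * (s - r)) = 0 ∨ cl (r + 4 * (s - r)) = 1 ∨
      4 * |s - r| ≤ |cl (r + 4 * (s - r)) - r| := by
  rcases le_total s r with h | h
  · rcases le_total (r + 4 * (s - r)) 0 with h1 | h1
    · exact Or.inl (cl_of_nonpos h1)
    · have := cl_le_self h1 (by linarith)
      refine Or.inr (Or.inr ?_)
      rw [abs_of_nonpos (by linarith), abs_of_nonpos (by linarith)]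
      linarith
  · rcases le_total 1 (r + 4 * (s - r)) with h1 | h1
    · exact Or.inr (Or.inl (cl_of_one_le h1))
    · have := self_le_cl (t := r + 4 * (s - r)) (by linarith) h1
      refine Or.inr (Or.inr ?_)
      rw [abs_of_nonneg (by linarith), abs_of_nonneg (by linarith)]
      linarith

section Calc
variable {E F : Type*} [NormedAddCommGroup E] [NormedSpace ℝ E] [NormedAddCommGroup F]
  [NormedSpace ℝ F]

lemma contDiff_one_tsum [CompleteSpace F] {f : ℕ → E → F} {v : ℕ → ℝ}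
    (hf : ∀ n, ContDiff ℝ 1 (f n)) (hv : Summable v) (hb : ∀ n x, ‖fderiv ℝ (f n) x‖ ≤ v n)
    {x₀ : E} (h0 : Summable fun n => f n x₀) : ContDiff ℝ 1 fun x => ∑' n, f n x := by
  have hd : ∀ n, Differentiable ℝ (f n) := fun n => (hf n).differentiable one_ne_zero
  rw [contDiff_one_iff_fderiv]
  refine ⟨fun x => (hasFDerivAt_tsum hv (fun n x => (hd n x).hasFDerivAt) hb h0 x).differentiableAt,
    ?_⟩
  rw [fderiv_tsum hv hd hb h0]
  exact continuous_tsum (fun n => (contDiff_one_iff_fderiv.1 (hf n)).2) hv hb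

lemma exists_bound_of_compact {f : E → F} (hf : ContDiff ℝ 1 f) (hc : HasCompactSupport f) :
    ∃ C : ℝ, 0 ≤ C ∧ (∀ x, ‖f x‖ ≤ C) ∧ ∀ x, ‖fderiv ℝ f x‖ ≤ C := by
  obtain ⟨C₁, h₁⟩ := hf.continuous.bounded_above_of_compact_support hc
  obtain ⟨C₂, h₂⟩ := (contDiff_one_iff_fderiv.1 hf).2.bounded_above_of_compact_support
    (hc.fderiv ℝ)
  exact ⟨max C₁ C₂, le_trans (norm_nonneg _) ((h₁ 0).trans (le_max_left _ _)),
    fun x => (h₁ x).trans (le_max_left _ _), fun x => (h₂ x).trans (le_max_right _ _)⟩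

end Calc

end Crest.Agent.R123.C
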