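import Crest.Agent.R123.Step

/-! Row 123: the telescope `Psi` and its `C¹` regularity. -/

set_option autoImplicit false
open scoped Topology
open Real

namespace Crest.Agent.R123.C

abbrev V : Type := ℂ × ℂ

noncomputable def Sw : V →L[ℝ] V := (ContinuousLinearEquiv.prodComm ℝ ℂ ℂ : V →L[ℝ] V)

@[simp] lemma Sw_mk (a b : ℂ) : Sw (a, b) = (b, a) := rfl
lemma Sw_apply (x : V) : Sw x = (x.2, x.1) := rfl
@[simp] lemma Sw_Sw (x : V) : Sw (Sw x) = x := rfl
lemma Swn_succ (n : ℕ) (x : V) : (Sw ^ (n + 1)) x = (Sw ^ n) (Sw x) := by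
  rw [pow_succ]; rfl
lemma Swn_succ' (n : ℕ) (x : V) : (Sw ^ (n + 1)) x = Sw ((Sw ^ n) x) := by
  rw [pow_succ']; rfl
@[simp] lemma Swn_zero (x : V) : (Sw ^ 0) x = x := by simp
@[simp] lemma Swn_Swn (n : ℕ) (x : V) : (Sw ^ n) ((Sw ^ n) x) = x := by
  induction n generalizing x with
  | zero => simp
  | succ n ih => rw [Swn_succ, Swn_succ', Sw_Sw, ih]
lemma Swn_Sw (n : ℕ) (x : V) : (Sw ^ n) (Sw x) = Sw ((Sw ^ n) x) := by
  rw [← Swn_succ, Swn_succ']
lemma norm_Swn (n : ℕ) (x : V) : ‖(Sw ^ n) x‖ = ‖x‖ := by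
  induction n with
  | zero => simp
  | succ n ih => rw [Swn_succ', Sw_apply, Prod.norm_def, max_comm, ← Prod.norm_def, ih]
lemma opNorm_Swn (n : ℕ) : ‖Sw ^ n‖ ≤ 1 :=
  ContinuousLinearMap.opNorm_le_bound _ zero_le_one fun x => by rw [norm_Swn, one_mul]

/-- Squared Euclidean norm. -/
noncomputable def q (x : V) : ℝ := ‖x.1‖ ^ 2 + ‖x.2‖ ^ 2
/-- Euclidean norm. -/
noncomputable def nr (x : V) : ℝ := √(q x)

lemma q_nonneg (x : V) : 0 ≤ q x := by unfold q; positivity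
lemma q_Sw (x : V) : q (Sw x) = q x := by simp [q, Sw_apply, add_comm]
lemma q_Swn (n : ℕ) (x : V) : q ((Sw ^ n) x) = q x := by
  induction n with
  | zero => simp
  | succ n ih => rw [Swn_succ', q_Sw, ih]
lemma q_smul (c : ℝ) (x : V) : q (c • x) = c ^ 2 * q x := by
  simp [q, mul_pow, mul_add]
@[simp] lemma q_zero : q 0 = 0 := by simp [q]
lemma q_pos {x : V} (h : x ≠ 0) : 0 < q x := by
  rcases (q_nonneg x).lt_or_eq with h' | h'
  · exact h'
  · exfalso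
    apply h
    unfold q at h'
    have h1 : ‖x.1‖ ^ 2 = 0 := by nlinarith [sq_nonneg ‖x.1‖, sq_nonneg ‖x.2‖]
    have h2 : ‖x.2‖ ^ 2 = 0 := by nlinarith [sq_nonneg ‖x.1‖, sq_nonneg ‖x.2‖]
    ext <;> simp_all
@[fun_prop] lemma contDiff_normSq : ContDiff ℝ 1 fun z : ℂ => ‖z‖ ^ 2 := contDiff_norm_sq ℝ
@[fun_prop] lemma contDiff_q : ContDiff ℝ 1 q :=
  (contDiff_normSq.comp contDiff_fst).add (contDiff_normSq.comp contDiff_snd)
@[fun_prop] lemma contDiffAt_q (x : V) : ContDiffAt ℝ 1 q x := contDiff_q.contDiffAt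
lemma nr_nonneg (x : V) : 0 ≤ nr x := sqrt_nonneg _
lemma nr_sq (x : V) : nr x ^ 2 = q x := sq_sqrt (q_nonneg x)
lemma nr_pos {x : V} (h : x ≠ 0) : 0 < nr x := sqrt_pos.2 (q_pos h)
@[simp] lemma nr_zero : nr 0 = 0 := by simp [nr]
lemma nr_Sw (x : V) : nr (Sw x) = nr x := by rw [nr, q_Sw, nr]
lemma nr_Swn (n : ℕ) (x : V) : nr ((Sw ^ n) x) = nr x := by rw [nr, q_Swn, nr]
lemma nr_smul {c : ℝ} (hc : 0 ≤ c) (x : V) : nr (c • x) = c * nr x := by
  rw [nr, q_smul, sqrt_mul (sq_nonneg c), sqrt_sq hc, nr]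
lemma contDiffAt_nr {x : V} (h : x ≠ 0) : ContDiffAt ℝ 1 nr x :=
  (contDiffAt_q x).sqrt (q_pos h).ne'
lemma nr_eq_of_sq {x : V} {t : ℝ} (ht : 0 ≤ t) (h : q x = t ^ 2) : nr x = t := by
  rw [nr, h, sqrt_sq ht]

noncomputable def bet (t : ℝ) : ℝ := sin (π / 2 * step (1 / 2) 1 t)
noncomputable def alp (t : ℝ) : ℝ := cos (π / 2 * step (1 / 2) 1 t)

@[fun_prop] lemma contDiff_bet : ContDiff ℝ 1 bet := by unfold bet; fun_prop
@[fun_prop] lemma contDiff_alp : ContDiff ℝ 1 alp := by unfold alp; fun_prop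
lemma bet_sq_add (t : ℝ) : bet t ^ 2 + alp t ^ 2 = 1 := sin_sq_add_cos_sq _
lemma bet_nonneg (t : ℝ) : 0 ≤ bet t := by
  have := step_nonneg (1 / 2) 1 t
  have := step_le_one (1 / 2) 1 t
  exact sin_nonneg_of_nonneg_of_le_pi (by positivity) (by nlinarith [pi_pos])
lemma alp_nonneg (t : ℝ) : 0 ≤ alp t := by
  have := step_nonneg (1 / 2) 1 t
  have := step_le_one (1 / 2) 1 t
  exact cos_nonneg_of_neg_pi_div_two_le_of_le (by nlinarith [pi_pos]) (by nlinarith [pi_pos])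
lemma bet_le_one (t : ℝ) : bet t ≤ 1 := sin_le_one _
lemma alp_le_one (t : ℝ) : alp t ≤ 1 := cos_le_one _
lemma bet_of_le {t : ℝ} (h : t ≤ 1 / 2) : bet t = 0 := by
  rw [bet, step_of_le (by norm_num) h]; simp
lemma alp_of_le {t : ℝ} (h : t ≤ 1 / 2) : alp t = 1 := by
  rw [alp, step_of_le (by norm_num) h]; simp
lemma bet_of_ge {t : ℝ} (h : 1 ≤ t) : bet t = 1 := by
  rw [bet, step_of_ge (by norm_num) h]; simp
lemma alp_of_ge {t : ℝ} (h : 1 ≤ t) : alp t = 0 := by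
  rw [alp, step_of_ge (by norm_num) h]; simp
lemma one_le_bet_add_alp (t : ℝ) : 1 ≤ bet t + alp t := by
  nlinarith [bet_sq_add t, bet_nonneg t, alp_nonneg t, bet_le_one t, alp_le_one t]

noncomputable def om (ν : ℝ) : ℝ := 1 - step (3 / 4) 1 ν
@[fun_prop] lemma contDiff_om : ContDiff ℝ 1 om := by unfold om; fun_prop
@[fun_prop] lemma contDiffAt_om (t : ℝ) : ContDiffAt ℝ 1 om t := contDiff_om.contDiffAt
lemma om_nonneg (ν : ℝ) : 0 ≤ om ν := by unfold om; linarith [step_le_one (3 / 4) 1 ν]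
lemma om_le_one (ν : ℝ) : om ν ≤ 1 := by unfold om; linarith [step_nonneg (3 / 4) 1 ν]
lemma om_of_le {ν : ℝ} (h : ν ≤ 3 / 4) : om ν = 1 := by
  rw [om, step_of_le (by norm_num) h]; simp
lemma om_one : om 1 = 0 := by rw [om, step_of_ge (by norm_num) le_rfl]; simp

lemma exists_bound_deriv_om : ∃ C : ℝ, 0 ≤ C ∧ ∀ t, |deriv om t| ≤ C := by
  have hc : HasCompactSupport (deriv om) := by
    refine HasCompactSupport.intro (isCompact_Icc (a := (0 : ℝ)) (b := 2)) fun t ht => ?_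
    rw [Set.mem_Icc, not_and_or, not_le, not_le] at ht
    rcases ht with ht | ht
    · have : om =ᶠ[𝓝 t] fun _ => 1 := by
        filter_upwards [Iio_mem_nhds ht] with s hs using om_of_le (by linarith [Set.mem_Iio.1 hs])
      rw [this.deriv_eq]; simp
    · have : om =ᶠ[𝓝 t] fun _ => 0 := by
        filter_upwards [Ioi_mem_nhds ht] with s hs
        rw [om, step_of_ge (by norm_num) (by linarith [Set.mem_Ioi.1 hs])]; simp
      rw [this.deriv_eq]; simp
  obtain ⟨C, hC⟩ := (contDiff_one_iff_deriv.1 contDiff_om).2.bounded_above_of_compact_support hc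
  exact ⟨C, (norm_nonneg _).trans (hC 0), hC⟩

/-- The radial multiplier. -/
noncomputable def mm (ν t : ℝ) : ℝ := ν ^ 4 + om ν * t

lemma mm_one (t : ℝ) : mm 1 t = 1 := by simp [mm, om_one]
lemma mm_zero (t : ℝ) : mm 0 t = t := by simp [mm, om_of_le (ν := 0) (by norm_num)]
lemma mm_nonneg (ν : ℝ) {t : ℝ} (ht : 0 ≤ t) : 0 ≤ mm ν t := by
  have := om_nonneg ν
  unfold mm; positivity
lemma mm_ge (ν : ℝ) {t : ℝ} (ht : 0 ≤ t) : t ≤ mm ν t ∨ 1 / 4 ≤ mm ν t := by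
  rcases le_total ν (3 / 4) with h | h
  · left; rw [mm, om_of_le h]; nlinarith [sq_nonneg (ν ^ 2)]
  · right
    have h1 : (3 / 4 : ℝ) ^ 4 ≤ ν ^ 4 := pow_le_pow_left₀ (by norm_num) h 4
    have := mul_nonneg (om_nonneg ν) ht
    unfold mm; linarith
lemma mm_le {ν : ℝ} (h0 : 0 ≤ ν) (h1 : ν ≤ 1) {t : ℝ} (ht : 0 ≤ t) : mm ν t ≤ 1 + t := by
  have : ν ^ 4 ≤ 1 := pow_le_one₀ h0 h1
  have := mul_le_mul_of_nonneg_right (om_le_one ν) ht
  unfold mm; linarith

/-- The level parameter. -/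
noncomputable def uu (k ν : ℝ) : ℝ := k ^ 2 * mm ν (k ^ 4)

lemma uu_nonneg (k ν : ℝ) : 0 ≤ uu k ν := mul_nonneg (sq_nonneg _) (mm_nonneg _ (by positivity))
lemma uu_pos {k : ℝ} (hk : k ≠ 0) (ν : ℝ) : 0 < uu k ν := by
  have h4 : 0 < k ^ 4 := by positivity
  have : 0 < mm ν (k ^ 4) := by
    rcases mm_ge ν h4.le with h | h <;> linarith
  unfold uu; positivity
lemma uu_one (k : ℝ) : uu k 1 = k ^ 2 := by simp [uu, mm_one]
lemma one_le_uu {k : ℝ} (hk : 4 ≤ k ^ 2) (ν : ℝ) : 1 ≤ uu k ν := by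
  have h4 : 16 ≤ k ^ 4 := by nlinarith
  unfold uu
  rcases mm_ge ν (t := k ^ 4) (by positivity) with h | h <;> nlinarith

/-- A compactly supported smooth map into the unit disc fixing the unit circle. -/
noncomputable def cc (z : ℂ) : ℂ := (2 * (1 - step 1 2 (‖z‖ ^ 2)) / (1 + ‖z‖ ^ 2)) • z

lemma contDiff_cc : ContDiff ℝ 1 cc := by
  unfold cc
  have h : ContDiff ℝ 1 fun z : ℂ => 2 * (1 - step 1 2 (‖z‖ ^ 2)) / (1 + ‖z‖ ^ 2) :=
    ContDiff.div (by fun_prop) (by fun_prop) fun z => by positivity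
  exact h.smul contDiff_id
lemma cc_of_norm {z : ℂ} (h : ‖z‖ = 1) : cc z = z := by
  unfold cc
  rw [h, step_of_le (by norm_num) (by norm_num)]
  norm_num
lemma norm_cc_le (z : ℂ) : ‖cc z‖ ≤ 1 := by
  have h0 := step_nonneg 1 2 (‖z‖ ^ 2)
  have h1 := step_le_one 1 2 (‖z‖ ^ 2)
  have hp : 0 < 1 + ‖z‖ ^ 2 := by positivity
  unfold cc
  rw [norm_smul, Real.norm_eq_abs, abs_of_nonneg (div_nonneg (by linarith) hp.le),
    div_mul_eq_mul_div, div_le_one hp]
  nlinarith [norm_nonneg z, sq_nonneg (‖z‖ - 1), mul_nonneg h0 (norm_nonneg z)]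
lemma hasCompactSupport_cc : HasCompactSupport cc := by
  refine HasCompactSupport.intro (isCompact_closedBall (0 : ℂ) 2) fun z hz => ?_
  rw [mem_closedBall_zero_iff, not_le] at hz
  unfold cc
  rw [step_of_ge (by norm_num) (by nlinarith)]
  simp

noncomputable def aa (t : ℝ) : ℝ := alp t * bet (64 * t)
@[fun_prop] lemma contDiff_aa : ContDiff ℝ 1 aa := by unfold aa; fun_prop
lemma aa_of_ge {t : ℝ} (h : 1 ≤ t) : aa t = 0 := by rw [aa, alp_of_ge h, zero_mul]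
lemma hasCompactSupport_aa : HasCompactSupport aa := by
  refine HasCompactSupport.intro (isCompact_Icc (a := (0 : ℝ)) (b := 1)) fun t ht => ?_
  rw [Set.mem_Icc, not_and_or, not_le, not_le] at ht
  rcases ht with ht | ht
  · rw [aa, bet_of_le (by linarith), mul_zero]
  · exact aa_of_ge ht.le

abbrev P3 : Type := ℝ × ℝ × ℂ

noncomputable def coefA (n : ℕ) (p : P3) : ℝ := p.1 ^ 2 * aa (64 ^ n * uu p.1 p.2.1)
noncomputable def vecB (n : ℕ) (p : P3) : V := (Sw ^ n) (cc p.2.2 ^ (2 ^ n), 0)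

@[fun_prop] lemma contDiff_uu : ContDiff ℝ 1 fun p : P3 => uu p.1 p.2.1 := by
  unfold uu mm; fun_prop
lemma contDiff_coefA (n : ℕ) : ContDiff ℝ 1 (coefA n) := by unfold coefA; fun_prop
lemma contDiff_vecB (n : ℕ) : ContDiff ℝ 1 (vecB n) := by
  unfold vecB
  refine (Sw ^ n).contDiff.comp (ContDiff.prodMk ?_ contDiff_const)
  exact (contDiff_cc.comp (contDiff_snd.comp contDiff_snd)).pow _

lemma norm_vecB_le (n : ℕ) (p : P3) : ‖vecB n p‖ ≤ 1 := by
  rw [vecB, norm_Swn, Prod.norm_def]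
  simp only [norm_pow, norm_zero]
  exact max_le (pow_le_one₀ (norm_nonneg _) (norm_cc_le _)) zero_le_one

lemma exists_bound_vecB : ∃ C : ℝ, 0 ≤ C ∧ ∀ n p, ‖fderiv ℝ (vecB n) p‖ ≤ 2 ^ n * C := by
  obtain ⟨C, hC0, -, hC⟩ := exists_bound_of_compact contDiff_cc hasCompactSupport_cc
  refine ⟨C, hC0, fun n p => ?_⟩
  have h1 : HasFDerivAt (fun p : P3 => cc p.2.2)
      ((fderiv ℝ cc p.2.2).comp ((ContinuousLinearMap.snd ℝ ℝ ℂ).comp
        (ContinuousLinearMap.snd ℝ ℝ (ℝ × ℂ)))) p :=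
    HasFDerivAt.comp (g := cc) (f := fun p : P3 => p.2.2) p
      ((contDiff_cc.differentiable one_ne_zero) p.2.2).hasFDerivAt
      ((ContinuousLinearMap.snd ℝ ℝ ℂ).comp (ContinuousLinearMap.snd ℝ ℝ (ℝ × ℂ))).hasFDerivAt
  have h2 := (Sw ^ n).hasFDerivAt.comp p ((h1.pow (2 ^ n)).prodMk (hasFDerivAt_const (0 : ℂ) p))
  have h3 : vecB n = (Sw ^ n) ∘ fun p : P3 => (cc p.2.2 ^ (2 ^ n), (0 : ℂ)) := by
    funext p; rfl
  rw [h3, h2.fderiv]
  refine ContinuousLinearMap.opNorm_le_bound _ (by positivity) fun v => ?_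
  rw [ContinuousLinearMap.comp_apply, norm_Swn]
  simp only [ContinuousLinearMap.comp_apply, ContinuousLinearMap.prod_apply,
    Prod.norm_def, zero_apply, norm_zero, smul_apply,
    ContinuousLinearMap.coe_snd', smul_eq_mul, nsmul_eq_mul, norm_mul, norm_pow]
  refine max_le ?_ (by positivity)
  have e1 : ‖cc p.2.2‖ ^ (2 ^ n - 1) ≤ 1 := pow_le_one₀ (norm_nonneg _) (norm_cc_le _)
  have e2 : ‖(fderiv ℝ cc p.2.2) v.2.2‖ ≤ C * max ‖v.1‖ (max ‖v.2.1‖ ‖v.2.2‖) :=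
    ((fderiv ℝ cc p.2.2).le_opNorm _).trans
      (mul_le_mul (hC _) ((le_max_right _ _).trans (le_max_right _ _)) (norm_nonneg _) hC0)
  have e3 : ‖((2 ^ n : ℕ) : ℂ)‖ = 2 ^ n := by simp
  rw [e3, mul_assoc, mul_assoc]
  refine mul_le_mul_of_nonneg_left ?_ (by positivity)
  calc _ ≤ 1 * (C * max ‖v.1‖ (max ‖v.2.1‖ ‖v.2.2‖)) :=
        mul_le_mul e1 e2 (norm_nonneg _) zero_le_one
    _ = _ := one_mul _

lemma small_of_uu {n : ℕ} {k ν : ℝ} (h : 64 ^ n * uu k ν ≤ 1) :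
    2 ^ n * |k| ≤ 2 ∧ 64 ^ n * (k ^ 2 * ν ^ 4) ≤ 1 := by
  have h64 : (0 : ℝ) < 64 ^ n := by positivity
  constructor
  · rcases mm_ge ν (t := k ^ 4) (by positivity) with h1 | h1
    · have h2 : (2 ^ n * |k|) ^ 6 ≤ 1 := by
        have e : (2 ^ n * |k|) ^ 6 = 64 ^ n * (k ^ 2 * k ^ 4) := by
          rw [mul_pow, ← pow_mul, mul_comm n 6, pow_mul, Even.pow_abs (by decide)]
          norm_num; ring
        rw [e]
        refine le_trans (mul_le_mul_of_nonneg_left ?_ h64.le) h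
        exact mul_le_mul_of_nonneg_left h1 (sq_nonneg k)
      have := (pow_le_one_iff_of_nonneg (by positivity) (by norm_num)).1 h2
      linarith
    · have h2 : (2 ^ n * |k|) ^ 2 ≤ 2 ^ 2 := by
        have e : (2 ^ n * |k|) ^ 2 = 4 ^ n * k ^ 2 := by
          rw [mul_pow, ← pow_mul, mul_comm n 2, pow_mul, sq_abs]; norm_num
        have h4 : (4 : ℝ) ^ n ≤ 64 ^ n := pow_le_pow_left₀ (by norm_num) (by norm_num) n
        have h5 : k ^ 2 * (1 / 4) ≤ uu k ν := mul_le_mul_of_nonneg_left h1 (sq_nonneg k)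
        rw [e]
        nlinarith [mul_le_mul_of_nonneg_left h5 h64.le, mul_le_mul_of_nonneg_right h4 (sq_nonneg k)]
      exact le_of_sq_le_sq' h2
  · refine le_trans (mul_le_mul_of_nonneg_left ?_ h64.le) h
    unfold uu mm
    have := mul_nonneg (om_nonneg ν) (show 0 ≤ k ^ 4 by positivity)
    nlinarith [sq_nonneg k]
where le_of_sq_le_sq' {a : ℝ} (h : a ^ 2 ≤ 2 ^ 2) : a ≤ 2 := by nlinarith

lemma exists_bound_coefA : ∃ C : ℝ, 0 ≤ C ∧ ∀ n p,
    |coefA n p| ≤ C / 4 ^ n ∧ ‖fderiv ℝ (coefA n) p‖ ≤ C / 2 ^ n := by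
  obtain ⟨C, hC0, hCa, hC⟩ := exists_bound_of_compact contDiff_aa hasCompactSupport_aa
  obtain ⟨D, hD0, hD⟩ := exists_bound_deriv_om
  refine ⟨C * (2000 + 256 * D), by positivity, fun n p => ?_⟩
  obtain ⟨k, ν, z⟩ := p
  by_cases h : 64 ^ n * uu k ν ≤ 1
  swap
  · have hev : coefA n =ᶠ[𝓝 (k, ν, z)] fun _ => 0 := by
      have : ContinuousAt (fun p : P3 => 64 ^ n * uu p.1 p.2.1) (k, ν, z) :=
        (continuous_const.mul contDiff_uu.continuous).continuousAt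
      filter_upwards [this.eventually (lt_mem_nhds (not_le.1 h))] with p hp
      rw [coefA, aa_of_ge hp.le, mul_zero]
    rw [hev.fderiv_eq, hev.self_of_nhds]
    simp only [abs_zero, fderiv_fun_const, Pi.zero_apply, norm_zero]
    constructor <;> positivity
  obtain ⟨h1, h2⟩ := small_of_uu h
  have h2n : (0 : ℝ) < 2 ^ n := by positivity
  have h64 : (0 : ℝ) < 64 ^ n := by positivity
  have hk : |k| ≤ 2 / 2 ^ n := by rw [le_div_iff₀ h2n]; linarith
  have hk2 : |k| ≤ 2 := by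
    have : (1 : ℝ) ≤ 2 ^ n := one_le_pow₀ (by norm_num)
    nlinarith [abs_nonneg k]
  have h3 : 64 ^ n * k ^ 6 ≤ 64 := by
    have e : (2 ^ n * |k|) ^ 6 = 64 ^ n * k ^ 6 := by
      rw [mul_pow, ← pow_mul, mul_comm n 6, pow_mul, Even.pow_abs (by decide)]
      norm_num
    rw [← e]
    calc _ ≤ (2 : ℝ) ^ 6 := pow_le_pow_left₀ (by positivity) h1 6
      _ = 64 := by norm_num
  constructor
  · have e : k ^ 2 ≤ 4 / 4 ^ n := by
      have : (2 / 2 ^ n : ℝ) ^ 2 = 4 / 4 ^ n := by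
        rw [div_pow, ← pow_mul, mul_comm n 2, pow_mul]; norm_num
      rw [← this, ← sq_abs]
      exact pow_le_pow_left₀ (abs_nonneg _) hk 2
    rw [coefA, abs_mul, abs_of_nonneg (sq_nonneg _)]
    calc _ ≤ 4 / 4 ^ n * C := mul_le_mul e (hCa _) (abs_nonneg _) (by positivity)
      _ = C * 4 / 4 ^ n := by ring
      _ ≤ _ := by gcongr; linarith
  set K : P3 →L[ℝ] ℝ := ContinuousLinearMap.fst ℝ ℝ (ℝ × ℂ) with hK
  set N : P3 →L[ℝ] ℝ := (ContinuousLinearMap.fst ℝ ℝ ℂ).comp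
    (ContinuousLinearMap.snd ℝ ℝ (ℝ × ℂ)) with hN
  have dK : HasFDerivAt (fun p : P3 => p.1) K (k, ν, z) := K.hasFDerivAt
  have dN : HasFDerivAt (fun p : P3 => p.2.1) N (k, ν, z) := N.hasFDerivAt
  have dom : HasFDerivAt (fun p : P3 => om p.2.1) (deriv om ν • N) (k, ν, z) :=
    HasDerivAt.comp_hasFDerivAt (h₂ := om) (f := fun p : P3 => p.2.1) (k, ν, z)
      ((contDiff_om.differentiable one_ne_zero) ν).hasDerivAt dN
  set t := 64 ^ n * uu k ν with ht
  have du : HasFDerivAt (fun p : P3 => 64 ^ n * uu p.1 p.2.1) _ (k, ν, z) :=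
    ((dK.pow 2).mul ((dN.pow 4).add (dom.mul (dK.pow 4)))).const_mul ((64 : ℝ) ^ n)
  have da : HasFDerivAt (fun p : P3 => aa (64 ^ n * uu p.1 p.2.1)) _ (k, ν, z) :=
    HasDerivAt.comp_hasFDerivAt (h₂ := aa) (f := fun p : P3 => 64 ^ n * uu p.1 p.2.1) (k, ν, z)
      ((contDiff_aa.differentiable one_ne_zero) t).hasDerivAt du
  have dA := (dK.pow 2).mul da
  have hA : HasFDerivAt (coefA n)
      ((2 * k * aa t + deriv aa t * (2 * k * t + 4 * k * om ν * (64 ^ n * k ^ 6))) • K +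
        (deriv aa t * (4 * (64 ^ n * (k ^ 4 * ν ^ 3)) +
          deriv om ν * k ^ 2 * (64 ^ n * k ^ 6))) • N) (k, ν, z) := by
    refine HasFDerivAt.congr_fderiv (f := coefA n) dA ?_
    refine ContinuousLinearMap.ext fun v => ?_
    simp only [add_apply, smul_apply, smul_eq_mul, nsmul_eq_mul, Pi.add_apply, Pi.mul_apply,
      ← ht]
    simp only [ht, uu, mm]
    norm_num
    ring
  rw [hA.fderiv]
  have nK : ‖K‖ ≤ 1 := ContinuousLinearMap.norm_fst_le ..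
  have nN : ‖N‖ ≤ 1 := by
    refine (ContinuousLinearMap.opNorm_comp_le _ _).trans ?_
    exact mul_le_one₀ (ContinuousLinearMap.norm_fst_le ..) (norm_nonneg _)
      (ContinuousLinearMap.norm_snd_le ..)
  have hda : |deriv aa t| ≤ C := by
    have := hC t
    rwa [← norm_deriv_eq_norm_fderiv] at this
  have haa : |aa t| ≤ C := hCa t
  have ht0 : 0 ≤ t := mul_nonneg h64.le (uu_nonneg _ _)
  have hk0 := abs_nonneg k
  have hk6 : 0 ≤ 64 ^ n * k ^ 6 := by positivity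
  have b1 : |2 * k * aa t + deriv aa t * (2 * k * t + 4 * k * om ν * (64 ^ n * k ^ 6))| ≤
      |k| * (260 * C) := by
    have e1 : |2 * k * t + 4 * k * om ν * (64 ^ n * k ^ 6)| ≤ |k| * 258 := by
      have : 2 * k * t + 4 * k * om ν * (64 ^ n * k ^ 6) =
          k * (2 * t + 4 * (om ν * (64 ^ n * k ^ 6))) := by ring
      have e2 : om ν * (64 ^ n * k ^ 6) ≤ 64 := by
        nlinarith [om_le_one ν, om_nonneg ν]
      have e3 := mul_nonneg (om_nonneg ν) hk6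
      rw [this, abs_mul, abs_of_nonneg (a := 2 * t + _) (by positivity)]
      exact mul_le_mul_of_nonneg_left (by linarith) hk0
    refine (abs_add_le _ _).trans ?_
    rw [abs_mul, abs_mul, abs_mul, abs_two]
    nlinarith [mul_le_mul hda e1 (abs_nonneg _) hC0, mul_le_mul_of_nonneg_left haa hk0]
  have b2 : |deriv aa t * (4 * (64 ^ n * (k ^ 4 * ν ^ 3)) +
      deriv om ν * k ^ 2 * (64 ^ n * k ^ 6))| ≤ |k| * (C * (260 + 128 * D)) := by
    have e1 : |64 ^ n * (k ^ 4 * ν ^ 3)| ≤ |k| * 65 := by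
      have y : |k| * |ν| ^ 3 ≤ k ^ 4 + ν ^ 4 := by
        rw [← Even.pow_abs (by decide : Even 4) k, ← Even.pow_abs (by decide : Even 4) ν]
        rcases le_total |k| |ν| with h' | h'
        · nlinarith [mul_le_mul_of_nonneg_right h' (show 0 ≤ |ν| ^ 3 by positivity),
            show 0 ≤ |k| ^ 4 by positivity]
        · nlinarith [mul_le_mul_of_nonneg_left (pow_le_pow_left₀ (abs_nonneg ν) h' 3) hk0,
            show 0 ≤ |ν| ^ 4 by positivity]
      have e : |64 ^ n * (k ^ 4 * ν ^ 3)| = |k| * (64 ^ n * (k ^ 2 * (|k| * |ν| ^ 3))) := by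
        rw [abs_mul, abs_mul, abs_pow, abs_pow, abs_pow, ← sq_abs k, abs_of_pos (by norm_num)]
        ring
      rw [e]
      refine mul_le_mul_of_nonneg_left ?_ hk0
      have := mul_le_mul_of_nonneg_left (mul_le_mul_of_nonneg_left y (sq_nonneg k)) h64.le
      nlinarith
    have e2 : |deriv om ν * k ^ 2 * (64 ^ n * k ^ 6)| ≤ |k| * (128 * D) := by
      rw [abs_mul, abs_mul, abs_of_nonneg hk6, abs_pow]
      have : |k| ^ 2 ≤ |k| * 2 := by nlinarith
      calc _ ≤ D * (|k| * 2) * 64 := by gcongr; exact hD ν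
        _ = _ := by ring
    rw [abs_mul]
    have e3 : |4 * (64 ^ n * (k ^ 4 * ν ^ 3)) + deriv om ν * k ^ 2 * (64 ^ n * k ^ 6)| ≤
        |k| * (260 + 128 * D) := by
      refine (abs_add_le _ _).trans ?_
      rw [abs_mul 4, abs_of_pos (by norm_num : (0 : ℝ) < 4)]
      linarith
    calc _ ≤ C * (|k| * (260 + 128 * D)) := mul_le_mul hda e3 (abs_nonneg _) hC0
      _ = _ := by ring
  refine (norm_add_le _ _).trans ?_
  rw [norm_smul, norm_smul, Real.norm_eq_abs, Real.norm_eq_abs]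
  calc _ ≤ |k| * (260 * C) * 1 + |k| * (C * (260 + 128 * D)) * 1 := by gcongr
    _ = |k| * (C * (520 + 128 * D)) := by ring
    _ ≤ 2 / 2 ^ n * (C * (520 + 128 * D)) := by gcongr
    _ = C * (1040 + 256 * D) / 2 ^ n := by ring
    _ ≤ _ := by gcongr; norm_num

/-- The telescope. -/
noncomputable def Psi (p : P3) : V :=
  (p.1 ^ 2 * bet (uu p.1 p.2.1)) • vecB 0 p + ∑' n, coefA n p • vecB (n + 1) p

lemma contDiff_Psi : ContDiff ℝ 1 Psi := by
  obtain ⟨C, hC0, hC⟩ := exists_bound_coefA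
  obtain ⟨D, hD0, hD⟩ := exists_bound_vecB
  unfold Psi
  have h0 : ContDiff ℝ 1 fun p : P3 => p.1 ^ 2 * bet (uu p.1 p.2.1) := by fun_prop
  refine ContDiff.add (h0.smul (contDiff_vecB 0)) ?_
  refine contDiff_one_tsum (v := fun n => (C * (2 * D + 1)) * (1 / 2) ^ n) (x₀ := 0)
    (fun n => (contDiff_coefA n).smul (contDiff_vecB (n + 1)))
    (summable_geometric_two.mul_left _) (fun n p => ?_) ?_
  · have hA := ((contDiff_coefA n).differentiable one_ne_zero p).hasFDerivAt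
    have hB := ((contDiff_vecB (n + 1)).differentiable one_ne_zero p).hasFDerivAt
    have := (hA.smul hB).fderiv
    change ‖fderiv ℝ (coefA n • vecB (n + 1)) p‖ ≤ _
    rw [this]
    refine (norm_add_le _ _).trans ?_
    rw [norm_smul, ContinuousLinearMap.norm_smulRight_apply, Real.norm_eq_abs]
    calc _ ≤ C / 4 ^ n * (2 ^ (n + 1) * D) + C / 2 ^ n * 1 := by
          gcongr
          exacts [(hC n p).1, hD _ _, (hC n p).2, norm_vecB_le _ _]
      _ = _ := by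
          have : (4 : ℝ) ^ n = 2 ^ n * 2 ^ n := by rw [← mul_pow]; norm_num
          rw [this, one_div, inv_pow]; field_simp; ring
  · simp [coefA, summable_zero]

end Crest.Agent.R123.C
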